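import Vale.Agent.P158.GeoU
import Vale.Agent.P158.Boundary
import Vale.Agent.P158.Peierls

/-!
# P158: the objects of the proof

The chain is the one of `PROOF70.md`; see `SPEC.md` for who proves what. Everything refers to an
edge `e` with an endpoint `z`.

* segments (windows of geodesics of the plane around an edge), their extendability and margins
  are in `Chain/Seg.lean`.
* `boxMargin`: the extra cost in a box when the weights on `Q` are raised by `S`.
* `IsBranch`: a branch point of the geodesic tree of a boundary point of a square.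
* `IsGood`: the boundary cost of a box is of order `N` and crossing geodesics are short.
-/

open MeasureTheory Filter
open scoped ENNReal Topology

namespace Vale.P158

open Vale.Agent.P158.Crossing

noncomputable section

namespace Chain

/-- The closed sup ball. -/
def ball (z : Z2) (R : ℕ) : Finset Z2 :=
  Finset.Icc (z.1 - R) (z.1 + R) ×ˢ Finset.Icc (z.2 - R) (z.2 + R)

lemma mem_ball {z v : Z2} {R : ℕ} : v ∈ ball z R ↔ supDist z v ≤ R := by
  simp only [ball, supDist, Finset.mem_product, Finset.mem_Icc]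
  omega

/-- The square of half side `N + 1` about the origin. -/
def sq (N : ℕ) : Rect where
  x0 := -(N : ℤ) - 1
  x1 := (N : ℤ) + 1
  y0 := -(N : ℤ) - 1
  y1 := (N : ℤ) + 1
  hx := by omega
  hy := by omega

/-- The points of `sq N`. -/
def box (N : ℕ) : Set Z2 := {w | (sq N).Mem w}

/-- The middle of `sq N`. -/
def Mid (N : ℕ) (v : Z2) : Prop := supDist 0 v ≤ N / 2

/-- The boundary loop of `sq N`. -/
def loop (N : ℕ) : Loop (sq N) := boundaryLoop (sq N)

/-- The passage times between boundary points of `sq N`, by their indices. -/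
def pass (t : Sym2 Z2 → ℝ) (N : ℕ) : ℕ → ℕ → ℝ := (loop N).pass t (box N)

/-! ### The box -/

/-- The weights with `S` added on `Q`. -/
def raise (t : Sym2 Z2 → ℝ) (S : ℝ) (Q : Finset (Sym2 Z2)) : Sym2 Z2 → ℝ :=
  fun f => t f + if f ∈ Q then S else 0

/-- The margin of `Q` in the box, capped by the penalty. -/
def boxMargin (t : Sym2 Z2 → ℝ) (N : ℕ) (S : ℝ) (Q : Finset (Sym2 Z2)) (x y : Z2) : ℝ :=
  passU (raise t S Q) (box N) x y - passU t (box N) x y

/-- The geodesic of the box between the boundary points `i` and `j` uses `e`. -/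
def Uses (t : Sym2 Z2 → ℝ) (N : ℕ) (e : Sym2 Z2) (i j : ℕ) : Prop :=
  ∃ p : lattice.Walk ((loop N).x i) ((loop N).x j), IsGeoU t (box N) p ∧ e ∈ p.edges

/-- The geodesics of the box between the boundary points `i` and `j` avoid the middle. -/
def AvoidsMid (t : Sym2 Z2 → ℝ) (N : ℕ) (i j : ℕ) : Prop :=
  ∀ p : lattice.Walk ((loop N).x i) ((loop N).x j), IsGeoU t (box N) p →
    ∀ v ∈ p.support, ¬Mid N v

open scoped Classical in
/-- The mass of the allowed cells with a corner using `e`. -/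
def edgeBudget (t : Sym2 Z2 → ℝ) (N : ℕ) (A : Finset (ℕ × ℕ)) (e : Sym2 Z2) : ℝ :=
  ∑ c ∈ A.filter (fun c => Uses t N e c.1 c.2 ∨ Uses t N e (c.1 + 1) (c.2 + 1) ∨
    Uses t N e c.1 (c.2 + 1) ∨ Uses t N e (c.1 + 1) c.2), mixed (pass t N) c

open scoped Classical in
/-- The box `sq N` is good: cells outside `A` and the boundary steps do not see the middle, the
cells in `A` have total mass at most `K`, and geodesics between boundary points have at most `L`
edges in the middle. -/
structure IsGood (t : Sym2 Z2 → ℝ) (N : ℕ) (K : ℝ) (L : ℕ) (o : ℕ) (A : Finset (ℕ × ℕ)) : Prop where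
  sub : A ⊆ cells o (o + (loop N).n)
  total : ∑ c ∈ A, mixed (pass t N) c ≤ K
  far : ∀ c ∈ cells o (o + (loop N).n), c ∉ A →
    AvoidsMid t N c.1 c.2 ∧ AvoidsMid t N (c.1 + 1) (c.2 + 1) ∧
      AvoidsMid t N c.1 (c.2 + 1) ∧ AvoidsMid t N (c.1 + 1) c.2
  step : ∀ i ∈ Finset.Ico o (o + (loop N).n), AvoidsMid t N i (i + 1)
  len : ∀ (i j : ℕ) (p : lattice.Walk ((loop N).x i) ((loop N).x j)), IsGeoU t (box N) p →
    (p.edges.toFinset.filter fun f => ∀ v ∈ f, Mid N v).card ≤ L

/-- Some data make the box good. -/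
def GoodBox (t : Sym2 Z2 → ℝ) (N : ℕ) (K : ℝ) (L : ℕ) : Prop := ∃ o A, IsGood t N K L o A

/-! ### Branch points -/

/-- `v` is a branch point of the geodesic tree of `y` in the rectangle `B`. -/
def IsBranch (t : Sym2 Z2 → ℝ) (B : Rect) (y v : Z2) : Prop :=
  ∃ (x x' : Z2) (p : lattice.Walk y x) (q : lattice.Walk y x'), B.Bdry x ∧ B.Bdry x' ∧
    IsGeoU t {w | B.Mem w} p ∧ IsGeoU t {w | B.Mem w} q ∧ ¬B.Bdry v ∧
    ∃ (hp : v ∈ p.support) (hq : v ∈ q.support), ∀ w,
      w ∈ (p.dropUntil v hp).support → w ∈ (q.dropUntil v hq).support → w = v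

/-- Some boundary point of `sq M` has a branch point within `R` of `z` (used with `M = N`). -/
def BrNear (t : Sym2 Z2 → ℝ) (M : ℕ) (z : Z2) (R : ℕ) : Prop :=
  ∃ y v, (sq M).Bdry y ∧ supDist z v ≤ R ∧ IsBranch t (sq M) y v

/-! ### The statements joining the parts -/

/-- Branch points are rare (part A). -/
def BranchRare (μ : Measure ℝ) : Prop :=
  ∀ ε : ℝ, 0 < ε → ∃ C : ℝ, ∀ (M : ℕ) (y : Z2), (sq M).Bdry y →
    ∑ v ∈ ball 0 (M / 2), iidLaw (Sym2 Z2) μ {t | IsBranch t (sq M) y v} ≤
      ENNReal.ofReal (ε * M + C)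

/-- Good boxes are likely (the geometric input of part B). -/
def GoodWhp (μ : Measure ℝ) : Prop :=
  ∃ k : ℕ, ∀ η : ℝ≥0∞, 0 < η → ∀ᶠ N in atTop,
    iidLaw (Sym2 Z2) μ {t | ¬GoodBox t N ((k * N : ℕ) : ℝ) (k * N)} ≤ η

end Chain

end

end Vale.P158
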