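import Vale.Agent.P158.Chain.Nested

/-!
# P158, module BB: the budget of the segments through an edge

Segments are windows of `2R + 2` vertices of geodesics of the box around the dart `(z, z')`.
Without branch points near `z`, a cell charged by a segment has a corner carrying it, and a cell
is charged by one segment only.
-/

namespace Vale.P158.Chain

open SimpleGraph Finset
open Vale.Agent.P158.Crossing (Rect)

noncomputable section

variable {t : Sym2 Z2 → ℝ}

/-! ### The boundary -/

/-- Every boundary point has an index in every window of one period. -/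
lemma exists_index {N : ℕ} (o : ℕ) {v : Z2} (h : (sq N).Bdry v) :
    ∃ a, o ≤ a ∧ a < o + (loop N).n ∧ (loop N).x a = v := by
  obtain ⟨i, hi, rfl⟩ := exists_boundaryLoop (sq N) h
  have hn := perim_pos (sq N)
  have ho := Nat.mod_lt o hn
  simp only [loop, boundaryLoop_n]
  refine ⟨o + (i + perim (sq N) - o % perim (sq N)) % perim (sq N), Nat.le_add_right _ _, ?_, ?_⟩
  · have := Nat.mod_lt (i + perim (sq N) - o % perim (sq N)) hn
    omega
  · rw [← (boundaryLoop (sq N)).x_mod (o + _), boundaryLoop_n, Nat.add_mod_mod,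
      show o + (i + perim (sq N) - o % perim (sq N)) =
          i + perim (sq N) + perim (sq N) * (o / perim (sq N)) by
        have := Nat.mod_add_div o (perim (sq N)); omega,
      Nat.add_mul_mod_self_left, Nat.add_mod_right, Nat.mod_eq_of_lt hi]

lemma joined_loop (N i j : ℕ) : JoinedIn (box N) ((loop N).x i) ((loop N).x j) :=
  joinedIn_box (sq N) ((loop N).bdry i).1 ((loop N).bdry j).1

lemma box_finite (N : ℕ) : (box N).Finite :=
  Set.Finite.subset (Icc (sq N).x0 (sq N).x1 ×ˢ Icc (sq N).y0 (sq N).y1).finite_toSet fun w hw => by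
    simp only [box, Set.mem_ofPred_eq, Rect.Mem] at hw
    simp only [coe_product, coe_Icc, Set.mem_prod, Set.mem_Icc]
    exact ⟨⟨hw.1, hw.2.1⟩, hw.2.2⟩

/-- The Monge inequality of a nested pair. -/
lemma nested_monge (ht : ∀ e, 0 ≤ t e) {N a b i j : ℕ} (ha : a ≤ i) (hij : i < j) (hb : j ≤ b)
    (hn : b < a + (loop N).n) : pass t N a b + pass t N i j ≤ pass t N a j + pass t N i b := by
  rcases Nat.eq_or_lt_of_le ha with rfl | ha'
  · exact le_of_eq (add_comm _ _)
  rcases Nat.eq_or_lt_of_le hb with rfl | hb'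
  · exact le_rfl
  exact (monge ht (sq N) (fun v hv => hv) ((loop N).bdry a) ((loop N).bdry i) ((loop N).bdry j)
    ((loop N).bdry b) ((loop N).cycOrd ha' hij hb' hn) (joined_loop N a j) (joined_loop N i b)).1

/-- The mixed differences of the box are nonnegative. -/
lemma mixed_pass_nonneg (ht : ∀ e, 0 ≤ t e) {N o : ℕ} {c : ℕ × ℕ}
    (hc : c ∈ cells o (o + (loop N).n)) : 0 ≤ mixed (pass t N) c := by
  simp only [cells, mem_filter, mem_product, mem_Ico] at hc
  exact (loop N).mixed_nonneg ht (fun v hv => hv) (joined_loop N) hc.2 (by omega)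

lemma not_bdry_of_mid {N : ℕ} {v : Z2} (h : Mid N v) : ¬(sq N).Bdry v := by
  intro hb
  simp only [Mid, supDist, sq, Rect.Bdry, Rect.Mem, Prod.fst_zero, Prod.snd_zero, sub_zero] at h hb
  omega

lemma supDist_getVert {x y z : Z2} (p : lattice.Walk x y) {m : ℕ} (hz : p.getVert m = z) :
    ∀ k, m + k ≤ p.length → supDist z (p.getVert (m + k)) ≤ k := by
  intro k
  induction k with
  | zero => intro _; simp [hz, supDist]
  | succ k ih =>
    intro hk
    have := supDist_step (z := z) (p.adj_getVert_succ (show m + k < p.length by omega))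
    have := ih (by omega)
    rw [← add_assoc]
    omega

/-- The vertices of a window are within `R + 1` of its middle. -/
lemma supDist_window {x y z : Z2} (p : lattice.Walk x y) {i R : ℕ} (hi : i + (2 * R + 1) ≤ p.length)
    (hz : p.getVert (i + R) = z) {k : ℕ} (hk : k ≤ 2 * R + 1) :
    supDist z (p.getVert (i + k)) ≤ R + 1 := by
  rcases le_total R k with h | h
  · have := supDist_getVert p hz (k - R) (by omega)
    rw [show i + R + (k - R) = i + k by omega] at this
    omega
  · have := supDist_getVert p.reverse (m := p.length - (i + R)) (z := z)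
      (by rw [Walk.getVert_reverse, show p.length - (p.length - (i + R)) = i + R by omega, hz])
      (R - k) (by rw [Walk.length_reverse]; omega)
    rw [Walk.getVert_reverse,
      show p.length - (p.length - (i + R) + (R - k)) = i + k by omega] at this
    omega

lemma supDist_triangle (u v w : Z2) : supDist u w ≤ supDist u v + supDist v w := by
  simp only [supDist]
  omega

/-! ### Windows -/

/-- `q` is a window of scale `R` about the dart `(z, z')`, carried by a geodesic of the box between
boundary points. -/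
structure BoxWin (t : Sym2 Z2 → ℝ) (N R : ℕ) (z z' : Z2) (q : List Z2) (x y : Z2) : Prop where
  len : q.length = 2 * R + 2
  fst : q[R]? = some z
  snd : q[R + 1]? = some z'
  bx : (sq N).Bdry x
  by' : (sq N).Bdry y
  geo : ∃ p : lattice.Walk x y, IsGeoU t (box N) p ∧ q <:+: p.support

open scoped Classical in
/-- The margins of distinct segments through an edge are paid by the budget of that edge. -/
theorem segs_budget (ht : ∀ e, 0 < t e) (hu : PathUnique t) {N : ℕ} {K : ℝ} {L o : ℕ}
    {A : Finset (ℕ × ℕ)} (hgood : IsGood t N K L o A) {z z' : Z2} {R : ℕ} {S : ℝ} (hS : 0 ≤ S)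
    (hmid : supDist 0 z + R + 2 ≤ N / 2) (hbr : ¬BrNear t N z (R + 1))
    (s : Finset (List Z2)) (Q : List Z2 → Finset (Sym2 Z2)) (x y : List Z2 → Z2)
    (hs : ∀ q ∈ s, BoxWin t N R z z' q (x q) (y q))
    (hQ : ∀ q ∈ s, ∀ f ∈ Q q, ∃ v ∈ f, v ∈ q) :
    ∑ q ∈ s, boxMargin t N S (Q q) (x q) (y q) ≤ edgeBudget t N A s(z, z') := by
  have ht0 : ∀ e, 0 ≤ t e := fun e => (ht e).le
  have ht' : ∀ (P : Finset (Sym2 Z2)) e, 0 ≤ raise t S P e := fun P e => by
    have := ht0 e
    simp only [raise]
    split_ifs <;> linarith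
  set n := (loop N).n
  -- each pair in index order
  have hex : ∀ q ∈ s, ∃ (a b : ℕ) (γ : lattice.Walk ((loop N).x a) ((loop N).x b)) (i : ℕ),
      o ≤ a ∧ a < b ∧ b < o + n ∧ IsGeoU t (box N) γ ∧ i + (2 * R + 1) ≤ γ.length ∧
        ((∀ k ≤ 2 * R + 1, q[k]? = some (γ.getVert (i + k))) ∨
          ∀ k ≤ 2 * R + 1, q[2 * R + 1 - k]? = some (γ.getVert (i + k))) ∧
        boxMargin t N S (Q q) (x q) (y q) =
          pass (raise t S (Q q)) N a b - pass t N a b := by
    intro q hq
    obtain ⟨hlen, -, -, hx, hy, p, hp, hinf⟩ := hs q hq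
    obtain ⟨i, hi, hget⟩ := List.infix_iff_getElem?.1 hinf
    rw [Walk.length_support] at hi
    have hget' : ∀ k ≤ 2 * R + 1, q[k]? = some (p.getVert (i + k)) := fun k hk => by
      rw [List.getElem?_eq_getElem (show k < q.length by omega), ← hget k (by omega),
        ← Walk.getVert_eq_support_getElem? _ (show k + i ≤ p.length by omega), Nat.add_comm]
    obtain ⟨ix, hix, hix', hex⟩ := exists_index o hx
    obtain ⟨iy, hiy, hiy', hey⟩ := exists_index o hy
    obtain ⟨p, rfl⟩ : ∃ p' : lattice.Walk ((loop N).x ix) ((loop N).x iy),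
        p'.copy hex hey = p := ⟨p.copy hex.symm hey.symm, by simp⟩
    simp only [Walk.getVert_copy] at hget'
    rw [Walk.length_copy] at hi
    have hp' : IsGeoU t (box N) p := by
      revert hp
      generalize x q = x', y q = y' at hex hey ⊢
      subst hex hey
      simp
    rcases lt_trichotomy ix iy with h | h | h
    · refine ⟨ix, iy, p, i, hix, h, hiy', hp', by omega, Or.inl hget', ?_⟩
      simp only [boxMargin, pass, Loop.pass, hex, hey]
    · exfalso
      subst h
      rw [(Walk.isPath_iff_nil.1 hp'.1).eq_nil, Walk.length_nil] at hi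
      omega
    · refine ⟨iy, ix, p.reverse, p.length - (i + (2 * R + 1)), hiy, h, hix', hp'.reverse,
        by rw [Walk.length_reverse]; omega, Or.inr fun k hk => ?_, ?_⟩
      · rw [hget' _ (Nat.sub_le _ _), Walk.getVert_reverse]
        congr 2
        omega
      · simp only [boxMargin, pass, Loop.pass, hex, hey]
        rw [passU_comm (ht' _) _ (x q), passU_comm ht0 _ (x q)]
  have hne : ∀ u v : Z2, Nonempty (lattice.Walk u v) := fun u v => lattice_connected u v
  choose! a b γ i hoa hab hbo hγ hi hor hmargin using hex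
  -- the middle edge of a window sits in the middle of it
  have hcenter : ∀ q ∈ s,
      (q[R]? = some ((γ q).getVert (i q + R)) ∧ q[R + 1]? = some ((γ q).getVert (i q + R + 1))) ∨
        (q[R + 1]? = some ((γ q).getVert (i q + R)) ∧
          q[R]? = some ((γ q).getVert (i q + R + 1))) := fun q hq => by
    rcases hor q hq with h | h
    · exact Or.inl ⟨h R (by omega), by rw [add_assoc]; exact h (R + 1) (by omega)⟩
    · have h1 := h R (by omega)
      have h2 := h (R + 1) (by omega)
      rw [show 2 * R + 1 - R = R + 1 by omega] at h1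
      rw [show 2 * R + 1 - (R + 1) = R by omega, ← add_assoc] at h2
      exact Or.inr ⟨h1, h2⟩
  have hedge : ∀ q ∈ s,
      s((γ q).getVert (i q + R), (γ q).getVert (i q + R + 1)) = s(z, z') := fun q hq => by
    have e1 := (hs q hq).fst
    have e2 := (hs q hq).snd
    rcases hcenter q hq with ⟨h1, h2⟩ | ⟨h1, h2⟩
    · rw [Option.some.inj (h1.symm.trans e1), Option.some.inj (h2.symm.trans e2)]
    · rw [Option.some.inj (h1.symm.trans e2), Option.some.inj (h2.symm.trans e1), Sym2.eq_swap]
  have hnear : ∀ q ∈ s, ∀ k ≤ 2 * R + 1, supDist z ((γ q).getVert (i q + k)) ≤ R + 1 := by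
    intro q hq k hk
    have e1 := (hs q hq).fst
    rcases hcenter q hq with ⟨h1, -⟩ | ⟨-, h2⟩
    · exact supDist_window _ (hi q hq) (Option.some.inj (h1.symm.trans e1)) hk
    · have hi' := hi q hq
      have := supDist_window (γ q).reverse (i := (γ q).length - (i q + (2 * R + 1))) (z := z)
        (R := R) (by rw [Walk.length_reverse]; omega)
        (by rw [Walk.getVert_reverse,
          show (γ q).length - ((γ q).length - (i q + (2 * R + 1)) + R) = i q + R + 1 by omega]
            exact Option.some.inj (h2.symm.trans e1))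
        (k := 2 * R + 1 - k) (by omega)
      rwa [Walk.getVert_reverse, show (γ q).length -
        ((γ q).length - (i q + (2 * R + 1)) + (2 * R + 1 - k)) = i q + k by omega] at this
  have hMid : ∀ v, supDist z v ≤ R + 1 → Mid N v := fun v hv => by
    have := supDist_triangle 0 z v
    simp only [Mid]
    omega
  have hqv : ∀ q ∈ s, ∀ v ∈ q, ∃ k ≤ 2 * R + 1, v = (γ q).getVert (i q + k) := by
    intro q hq v hv
    obtain ⟨k, hk, rfl⟩ := List.mem_iff_getElem.1 hv
    have := (hs q hq).len
    rcases hor q hq with h | h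
    · refine ⟨k, by omega, ?_⟩
      have := h k (by omega)
      rw [List.getElem?_eq_getElem hk] at this
      exact Option.some.inj this
    · refine ⟨2 * R + 1 - k, by omega, ?_⟩
      have := h (2 * R + 1 - k) (by omega)
      rw [show 2 * R + 1 - (2 * R + 1 - k) = k by omega, List.getElem?_eq_getElem hk] at this
      exact Option.some.inj this
  set h : List Z2 → ℕ → ℕ → ℝ := fun q i j => pass (raise t S (Q q)) N i j - pass t N i j with hh
  -- a margin needs a visit to the window
  have hzero : ∀ q ∈ s, ∀ i' j', h q i' j' ≠ 0 →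
      ∃ δ : lattice.Walk ((loop N).x i') ((loop N).x j'), IsGeoU t (box N) δ ∧
        ∃ k ≤ 2 * R + 1, (γ q).getVert (i q + k) ∈ δ.support := by
    intro q hq i' j' hne
    obtain ⟨δ, hδ⟩ := exists_geoU (t := t) (box_finite N) (joined_loop N i' j')
    refine ⟨δ, hδ, ?_⟩
    by_contra! hcon
    refine hne ?_
    have hsame : wlen (raise t S (Q q)) δ = wlen t δ := by
      unfold wlen
      refine congrArg List.sum (List.map_congr_left fun f hf => ?_)
      simp only [raise]
      rw [if_neg fun hfQ => ?_, add_zero]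
      obtain ⟨v, hvf, hvq⟩ := hQ q hq f hfQ
      obtain ⟨k, hk, rfl⟩ := hqv q hq v hvq
      exact hcon k hk (Walk.mem_support_of_mem_edges hf hvf)
    have hle : ∀ (p : lattice.Walk ((loop N).x i') ((loop N).x j')),
        wlen t p ≤ wlen (raise t S (Q q)) p := fun p => by
      refine List.sum_le_sum fun f _ => ?_
      simp only [raise]
      split_ifs <;> linarith
    simp only [hh, pass, Loop.pass]
    rw [sub_eq_zero]
    refine le_antisymm ?_ (le_passU (joined_loop N i' j') fun p hp =>
      (passU_le ht0 p hp).trans (hle p))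
    exact ((passU_le (ht' _) δ fun v hv => hδ.mem hv).trans_eq hsame).trans_eq
      (hδ.wlen_eq_passU ht0)
  -- a nested pair with a margin follows the window
  have hcorner : ∀ q ∈ s, ∀ i' j', a q ≤ i' → i' < j' → j' ≤ b q →
      ∀ δ : lattice.Walk ((loop N).x i') ((loop N).x j'), IsGeoU t (box N) δ →
        (∃ k ≤ 2 * R + 1, (γ q).getVert (i q + k) ∈ δ.support) →
        ∃ j, j + (2 * R + 1) ≤ δ.length ∧
          (∀ k ≤ 2 * R + 1, δ.getVert (j + k) = (γ q).getVert (i q + k)) ∧
          s(δ.getVert (j + R), δ.getVert (j + R + 1)) = s(z, z') := by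
    intro q hq i' j' h1 h2 h3 δ hδ hmeet
    obtain ⟨j, hj, hall⟩ := carries_of_meets ht hu (sq N) ((loop N).bdry _) ((loop N).bdry _)
      ((loop N).bdry i') ((loop N).bdry j') (hγ q hq) hδ
      (nested_monge ht0 h1 h2 h3 (by have := hoa q hq; have := hbo q hq; omega)) (hi q hq)
      (fun k hk => ⟨not_bdry_of_mid (hMid _ (hnear q hq k hk)),
        fun hb => hbr ⟨_, _, (loop N).bdry _, hnear q hq k hk, hb⟩,
        fun hb => hbr ⟨_, _, (loop N).bdry _, hnear q hq k hk, hb⟩⟩) hmeet
    refine ⟨j, hj, hall, ?_⟩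
    rw [hall R (by omega), add_assoc, hall (R + 1) (by omega), ← add_assoc]
    exact hedge q hq
  have hzMid : Mid N z := by simp only [Mid]; omega
  have hbudget : ∀ q ∈ s, boxMargin t N S (Q q) (x q) (y q) ≤
      ∑ c ∈ charged (h q) (a q) (b q), mixed (pass t N) c := by
    intro q hq
    have hb := budget (pass t N) (pass (raise t S (Q q)) N)
      ((loop N).pass_self ht0 fun k => ((loop N).bdry k).1)
      ((loop N).pass_self (ht' _) fun k => ((loop N).bdry k).1) (hab q hq).le (fun c hc => by
        simp only [cells, mem_filter, mem_product, mem_Ico] at hc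
        have := hoa q hq
        have := hbo q hq
        exact (loop N).mixed_nonneg (ht' _) (fun v hv => hv) (joined_loop N) hc.2 (by omega))
    have hs0 : ∑ i' ∈ Ico (a q) (b q),
        (pass (raise t S (Q q)) N i' (i' + 1) - pass t N i' (i' + 1)) = 0 :=
      sum_eq_zero fun i' hi' => by
        by_contra hne
        obtain ⟨δ, hδ, k, hk, hmem⟩ := hzero q hq i' (i' + 1) hne
        have hI := mem_Ico.1 hi'
        refine hgood.step i' (mem_Ico.2 ⟨?_, ?_⟩) δ hδ _ hmem (hMid _ (hnear q hq k hk))
        · have := hoa q hq; omega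
        · have := hbo q hq; omega
    rw [hs0, zero_add] at hb
    rw [hmargin q hq]
    exact hb
  -- a charged cell has a corner through the edge, inside the pair
  have hwit : ∀ q ∈ s, ∀ c ∈ charged (h q) (a q) (b q), ∃ i' j',
      ((i' = c.1 ∨ i' = c.1 + 1) ∧ (j' = c.2 ∨ j' = c.2 + 1)) ∧ i' < j' ∧
        ∃ (δ : lattice.Walk ((loop N).x i') ((loop N).x j')) (j : ℕ), IsGeoU t (box N) δ ∧
          j + (2 * R + 1) ≤ δ.length ∧
          (∀ k ≤ 2 * R + 1, δ.getVert (j + k) = (γ q).getVert (i q + k)) ∧
          s(δ.getVert (j + R), δ.getVert (j + R + 1)) = s(z, z') := by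
    intro q hq c hc
    obtain ⟨hcell, hne⟩ := mem_filter.1 hc
    simp only [cells, mem_filter, mem_product, mem_Ico] at hcell
    have key : ∀ i' j', (i' = c.1 ∨ i' = c.1 + 1) → (j' = c.2 ∨ j' = c.2 + 1) → h q i' j' ≠ 0 →
        ∃ i' j', ((i' = c.1 ∨ i' = c.1 + 1) ∧ (j' = c.2 ∨ j' = c.2 + 1)) ∧ i' < j' ∧
        ∃ (δ : lattice.Walk ((loop N).x i') ((loop N).x j')) (j : ℕ), IsGeoU t (box N) δ ∧
          j + (2 * R + 1) ≤ δ.length ∧
          (∀ k ≤ 2 * R + 1, δ.getVert (j + k) = (γ q).getVert (i q + k)) ∧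
          s(δ.getVert (j + R), δ.getVert (j + R + 1)) = s(z, z') := by
      intro i' j' e1 e2 hne
      have hlt : i' < j' := by
        refine lt_of_le_of_ne (by omega) fun he => hne ?_
        subst he
        simp only [hh, pass]
        rw [(loop N).pass_self ht0 (U := box N) fun k => ((loop N).bdry k).1,
          (loop N).pass_self (ht' _) (U := box N) fun k => ((loop N).bdry k).1, sub_self]
      obtain ⟨δ, hδ, hmeet⟩ := hzero q hq i' j' hne
      obtain ⟨j, r1, r2, r3⟩ := hcorner q hq i' j' (by omega) hlt (by omega) δ hδ hmeet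
      exact ⟨i', j', ⟨e1, e2⟩, hlt, δ, j, hδ, r1, r2, r3⟩
    rcases hne with h' | h' | h' | h'
    · exact key _ _ (Or.inl rfl) (Or.inl rfl) h'
    · exact key _ _ (Or.inr rfl) (Or.inr rfl) h'
    · exact key _ _ (Or.inl rfl) (Or.inr rfl) h'
    · exact key _ _ (Or.inr rfl) (Or.inl rfl) h'
  set C := A.filter (fun c => Uses t N s(z, z') c.1 c.2 ∨ Uses t N s(z, z') (c.1 + 1) (c.2 + 1) ∨
    Uses t N s(z, z') c.1 (c.2 + 1) ∨ Uses t N s(z, z') (c.1 + 1) c.2) with hC
  have hsub : ∀ q ∈ s, charged (h q) (a q) (b q) ⊆ C := by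
    intro q hq c hc
    obtain ⟨i', j', ⟨e1, e2⟩, -, δ, j, hδ, hj, -, hde⟩ := hwit q hq c hc
    have huse : Uses t N s(z, z') i' j' :=
      ⟨δ, hδ, (Walk.mk_mem_edges_iff_exists _).2 ⟨j + R, by omega, hde⟩⟩
    have hcell : c ∈ cells o (o + n) := by
      have hc' := (mem_filter.1 hc).1
      simp only [cells, mem_filter, mem_product, mem_Ico] at hc' ⊢
      have := hoa q hq
      have := hbo q hq
      omega
    refine mem_filter.2 ⟨?_, ?_⟩
    · by_contra hA
      obtain ⟨f1, f2, f3, f4⟩ := hgood.far c hcell hA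
      obtain ⟨p, hp, hpe⟩ := huse
      have hzp := p.fst_mem_support_of_mem_edges hpe
      rcases e1 with rfl | rfl <;> rcases e2 with rfl | rfl
      exacts [f1 p hp z hzp hzMid, f3 p hp z hzp hzMid, f4 p hp z hzp hzMid, f2 p hp z hzp hzMid]
    · rcases e1 with rfl | rfl <;> rcases e2 with rfl | rfl
      exacts [Or.inl huse, Or.inr (Or.inr (Or.inl huse)), Or.inr (Or.inr (Or.inr huse)),
        Or.inr (Or.inl huse)]
  -- two segments never charge the same cell
  have hdisj : ∀ q₁ ∈ s, ∀ q₂ ∈ s, q₁ ≠ q₂ →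
      Disjoint (charged (h q₁) (a q₁) (b q₁)) (charged (h q₂) (a q₂) (b q₂)) := by
    intro q₁ h₁ q₂ h₂ hne
    rw [Finset.disjoint_left]
    intro c hc₁ hc₂
    obtain ⟨i', j', ⟨e1, e2⟩, hlt, δ, j₁, hδ, hj₁, hall₁, hde₁⟩ := hwit q₁ h₁ c hc₁
    have hc' := (mem_filter.1 hc₂).1
    simp only [cells, mem_filter, mem_product, mem_Ico] at hc'
    -- the corner also meets the second window, at the middle edge
    have hz₂ : ∃ k ≤ 2 * R + 1, (γ q₂).getVert (i q₂ + k) ∈ δ.support := by
      refine ⟨R, by omega, ?_⟩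
      rcases Sym2.eq_iff.1 ((hedge q₂ h₂).trans hde₁.symm) with ⟨e, -⟩ | ⟨e, -⟩ <;>
        exact e ▸ δ.getVert_mem_support _
    obtain ⟨j₂, hj₂, hall₂, hde₂⟩ := hcorner q₂ h₂ i' j' (by omega) hlt (by omega) δ hδ hz₂
    have inj : ∀ {u v : ℕ}, u ≤ δ.length → v ≤ δ.length → δ.getVert u = δ.getVert v → u = v :=
      fun hu hv he => hδ.1.getVert_injOn hu hv he
    have hjj : j₁ = j₂ := by
      rcases Sym2.eq_iff.1 (hde₁.trans hde₂.symm) with ⟨e, -⟩ | ⟨e, e'⟩
      · have := inj (by omega) (by omega) e
        omega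
      · have := inj (by omega) (by omega) e
        have := inj (by omega) (by omega) e'
        omega
    subst hjj
    have hgg : ∀ k ≤ 2 * R + 1, (γ q₁).getVert (i q₁ + k) = (γ q₂).getVert (i q₂ + k) :=
      fun k hk => (hall₁ k hk).symm.trans (hall₂ k hk)
    have hzz : z ≠ z' := fun he => by
      subst he
      have := hedge q₁ h₁
      rcases Sym2.eq_iff.1 this with ⟨u, v⟩ | ⟨u, v⟩ <;>
      · have := (hi q₁ h₁)
        have := (γ q₁).adj_getVert_succ (show i q₁ + R < (γ q₁).length by omega)
        rw [u, v] at this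
        exact lattice.loopless.irrefl _ this
    refine hne (List.ext_getElem? fun k => ?_)
    have l₁ := (hs q₁ h₁).len
    have l₂ := (hs q₂ h₂).len
    rcases lt_or_ge k (2 * R + 2) with hk | hk
    · rcases hor q₁ h₁ with g₁ | g₁ <;> rcases hor q₂ h₂ with g₂ | g₂
      · rw [g₁ k (by omega), g₂ k (by omega), hgg k (by omega)]
      · exfalso
        have a₁ := (g₁ R (by omega)).symm.trans (hs q₁ h₁).fst
        have a₂ := g₂ R (by omega)
        rw [show 2 * R + 1 - R = R + 1 by omega, (hs q₂ h₂).snd] at a₂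
        rw [hgg R (by omega), ← a₂] at a₁
        exact hzz (Option.some.inj a₁).symm
      · exfalso
        have a₁ := g₁ R (by omega)
        rw [show 2 * R + 1 - R = R + 1 by omega, (hs q₁ h₁).snd] at a₁
        have a₂ := (g₂ R (by omega)).symm.trans (hs q₂ h₂).fst
        rw [← hgg R (by omega), ← a₁] at a₂
        exact hzz (Option.some.inj a₂).symm
      · have a₁ := g₁ (2 * R + 1 - k) (by omega)
        have a₂ := g₂ (2 * R + 1 - k) (by omega)
        rw [show 2 * R + 1 - (2 * R + 1 - k) = k by omega] at a₁ a₂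
        rw [a₁, a₂, hgg _ (by omega)]
    · rw [List.getElem?_eq_none (by omega), List.getElem?_eq_none (by omega)]
  calc ∑ q ∈ s, boxMargin t N S (Q q) (x q) (y q)
      ≤ ∑ q ∈ s, ∑ c ∈ charged (h q) (a q) (b q), mixed (pass t N) c := sum_le_sum hbudget
    _ = ∑ c ∈ s.biUnion (fun q => charged (h q) (a q) (b q)), mixed (pass t N) c :=
        (sum_biUnion hdisj).symm
    _ ≤ ∑ c ∈ C, mixed (pass t N) c :=
        sum_le_sum_of_subset_of_nonneg (biUnion_subset.2 hsub) fun c hc _ =>
          mixed_pass_nonneg ht0 (hgood.sub (mem_filter.1 hc).1)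
    _ = edgeBudget t N A s(z, z') := rfl

open scoped Classical in
/-- Over edges of the middle, the budgets total at most `4 L K`. -/
theorem sum_edgeBudget_le (ht : ∀ e, 0 ≤ t e) (hu : PathUnique t) {N : ℕ} {K : ℝ} {L o : ℕ}
    {A : Finset (ℕ × ℕ)} (hgood : IsGood t N K L o A) (I : Finset (Sym2 Z2))
    (hI : ∀ e ∈ I, ∀ v ∈ e, Mid N v) :
    ∑ e ∈ I, edgeBudget t N A e ≤ 4 * L * K := by
  have hpair : ∀ i j, (I.filter fun e => Uses t N e i j).card ≤ L := fun i j => by
    rcases (I.filter fun e => Uses t N e i j).eq_empty_or_nonempty with h | ⟨e, he⟩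
    · simp [h]
    obtain ⟨-, p, hp, -⟩ := mem_filter.1 he
    refine (card_le_card fun e' he' => ?_).trans (hgood.len i j p hp)
    obtain ⟨h1, p', hp', hmem⟩ := mem_filter.1 he'
    exact mem_filter.2 ⟨List.mem_toFinset.2 ((hp.unique hu hp') ▸ hmem), hI e' h1⟩
  have hnn : ∀ c ∈ A, 0 ≤ mixed (pass t N) c := fun c hc => mixed_pass_nonneg ht (hgood.sub hc)
  calc ∑ e ∈ I, edgeBudget t N A e
      ≤ ∑ c ∈ A, ((4 * L : ℕ) : ℝ) * mixed (pass t N) c := by
        simp only [edgeBudget, sum_filter]
        rw [sum_comm]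
        refine sum_le_sum fun c hc => ?_
        rw [← sum_filter, sum_const, nsmul_eq_mul]
        refine mul_le_mul_of_nonneg_right (Nat.cast_le.2 ?_) (hnn c hc)
        rw [filter_or, filter_or, filter_or]
        refine (card_union_le _ _).trans ?_
        refine le_trans (Nat.add_le_add_left (card_union_le _ _) _) ?_
        refine le_trans (Nat.add_le_add_left (Nat.add_le_add_left (card_union_le _ _) _) _) ?_
        have := hpair c.1 c.2
        have := hpair (c.1 + 1) (c.2 + 1)
        have := hpair c.1 (c.2 + 1)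
        have := hpair (c.1 + 1) c.2
        omega
    _ ≤ 4 * L * K := by
        rw [← mul_sum]
        push_cast
        exact mul_le_mul_of_nonneg_left hgood.total (by positivity)

end

end Vale.P158.Chain
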