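import Vale.Agent.P158.Lattice

/-!
# P158: from weights on all pairs to weights on the edges

An almost sure absence of bigeodesics for independent weights on all pairs of vertices gives the
same for independent weights indexed by the edges of the lattice.
-/

namespace Vale.P158.Chain

open MeasureTheory SimpleGraph

noncomputable section

open scoped Classical in
/-- Weights on all pairs from weights on the edges and spare weights. -/
def extendW (p : (lattice.edgeSet → ℝ) × (Sym2 Z2 → ℝ)) : Sym2 Z2 → ℝ :=
  fun f => if h : f ∈ lattice.edgeSet then p.1 ⟨f, h⟩ else p.2 f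

lemma measurePreserving_extendW (μ : Measure ℝ) [IsProbabilityMeasure μ] :
    MeasurePreserving extendW ((Measure.infinitePi fun _ : lattice.edgeSet => μ).prod
      (iidLaw (Sym2 Z2) μ)) (iidLaw (Sym2 Z2) μ) := by
  classical
  have hm : Measurable extendW := by
    refine measurable_pi_lambda _ fun f => ?_
    unfold extendW
    split_ifs <;> fun_prop
  refine ⟨hm, Measure.eq_infinitePi _ fun s A hA => ?_⟩
  rw [Measure.map_apply hm (.pi s.countable_toSet fun i _ => hA i)]
  have h : extendW ⁻¹' (s : Set (Sym2 Z2)).pi A =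
      ((s.subtype (· ∈ lattice.edgeSet) : Finset lattice.edgeSet) : Set lattice.edgeSet).pi
          (fun i => A i.1) ×ˢ
        ((s.filter fun f => f ∉ lattice.edgeSet : Finset (Sym2 Z2)) : Set (Sym2 Z2)).pi A := by
    ext p
    simp only [extendW, Set.mem_preimage, Set.mem_pi, Finset.mem_coe, Set.mem_prod,
      Finset.mem_subtype, Finset.mem_filter]
    constructor
    · exact fun h => ⟨fun i hi => by simpa [i.2] using h i.1 hi,
        fun i hi => by simpa [hi.2] using h i hi.1⟩
    · intro h i hi
      by_cases he : i ∈ lattice.edgeSet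
      · simpa [he] using h.1 ⟨i, he⟩ hi
      · simpa [he] using h.2 i ⟨hi, he⟩
  rw [h, Measure.prod_prod, iidLaw, Measure.infinitePi_pi _ fun i _ => hA _,
    Measure.infinitePi_pi _ fun i _ => hA _,
    Finset.prod_subtype_eq_prod_filter (f := fun i => μ (A i))]
  exact Finset.prod_filter_mul_prod_filter_not s (· ∈ lattice.edgeSet) _

/-- Almost surely no sequence is a bigeodesic for weights indexed by the edges. -/
theorem ae_edges_no_bigeodesic (μ : Measure ℝ) [IsProbabilityMeasure μ]
    (h : ∀ᵐ t ∂iidLaw (Sym2 Z2) μ, ¬∃ v, IsBigeodesic t v) :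
    ∀ᵐ t ∂Measure.infinitePi (fun _ : lattice.edgeSet => μ),
      ¬∃ v : ℤ → ℤ × ℤ, Function.Injective v ∧
        ∃ hv : ∀ i, lattice.Adj (v i) (v (i + 1)), ∀ i j : ℤ, i < j →
          ∑ k ∈ Finset.Ico i j, t ⟨s(v k, v (k + 1)), hv k⟩ =
            ⨅ p : lattice.Walk (v i) (v j),
              (p.darts.map fun d => t ⟨d.edge, d.edge_mem⟩).sum := by
  filter_upwards [Measure.ae_ae_of_ae_prod
    ((measurePreserving_extendW μ).quasiMeasurePreserving.ae h)] with t ht
  obtain ⟨ξ, hξ⟩ := ht.exists
  rintro ⟨v, hinj, hv, hgeo⟩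
  refine hξ ⟨v, hinj, hv, fun i j hij => ?_⟩
  have hw : ∀ (x y : Z2) (p : lattice.Walk x y),
      wlen (extendW (t, ξ)) p = (p.darts.map fun d => t ⟨d.edge, d.edge_mem⟩).sum := by
    intro x y p
    rw [wlen, Walk.edges, List.map_map]
    exact congrArg List.sum (List.map_congr_left fun d _ => by simp [extendW, d.edge_mem])
  simp only [passage, hw]
  rw [← hgeo i j hij]
  refine Finset.sum_congr rfl fun k _ => ?_
  have hk : s(v k, v (k + 1)) ∈ lattice.edgeSet := hv k
  simp [extendW, hk]

end

end Vale.P158.Chain
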