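import Vale.Agent.P158.Meas
import Vale.Agent.P158.Chain.Defs

/-!
# P158, PROOF70: segments as windows of geodesics

For an oriented edge `(u, v)` a segment of scale `R` is a window `g (-R), ..., g (R + 1)` of vertices
with `g 0 = u` and `g 1 = v`.  It is present when for every `n ≥ R` it extends to a window of
scale `n` which is a geodesic; its margin is the infimum over `n` of the greatest excess, among
these extensions, of the walks with the same ends avoiding the edges of the segment.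
-/

namespace Vale.P158.Chain

open MeasureTheory Finset Filter Topology SimpleGraph
open scoped ENNReal

noncomputable section

/-! ### Sequences of vertices -/

/-- The weight of the piece `[i, j]` of a sequence. -/
def seg (t : Sym2 Z2 → ℝ) (g : ℤ → Z2) (i j : ℤ) : ℝ := ∑ k ∈ Ico i j, t s(g k, g (k + 1))

/-- The piece `[i, j]` of a sequence is no heavier than any walk with the same ends. -/
def GeoI (t : Sym2 Z2 → ℝ) (g : ℤ → Z2) (i j : ℤ) : Prop :=
  ∀ π : lattice.Walk (g i) (g j), seg t g i j ≤ wlen t π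

/-- A window of scale `R` through the oriented edge `(u, v)`. -/
structure Win (u v : Z2) (R : ℕ) (g : ℤ → Z2) : Prop where
  zero : g 0 = u
  one : g 1 = v
  adj : ∀ i, -(R : ℤ) ≤ i → i ≤ R → lattice.Adj (g i) (g (i + 1))
  inj : Set.InjOn g (Set.Icc (-(R : ℤ)) (R + 1))

/-- The edges of a window. -/
def edgeSet (R : ℕ) (g : ℤ → Z2) : Finset (Sym2 Z2) :=
  (Ico (-(R : ℤ)) (R + 1)).image fun k => s(g k, g (k + 1))

lemma seg_split (t : Sym2 Z2 → ℝ) (g : ℤ → Z2) {i j k : ℤ} (hij : i ≤ j) (hjk : j ≤ k) :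
    seg t g i k = seg t g i j + seg t g j k := by
  rw [seg, seg, seg, ← sum_union (Ico_disjoint_Ico_consecutive i j k),
    Ico_union_Ico_eq_Ico hij hjk]

lemma seg_congr {t : Sym2 Z2 → ℝ} {g g' : ℤ → Z2} {i j : ℤ}
    (h : ∀ k, i ≤ k → k ≤ j → g k = g' k) : seg t g i j = seg t g' i j :=
  sum_congr rfl fun k hk => by
    have := mem_Ico.1 hk
    rw [h k this.1 (by omega), h (k + 1) (by omega) (by omega)]

lemma GeoI.congr {t : Sym2 Z2 → ℝ} {g g' : ℤ → Z2} {i j : ℤ} (hij : i ≤ j)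
    (h : ∀ k, i ≤ k → k ≤ j → g k = g' k) (hg : GeoI t g i j) : GeoI t g' i j := fun π => by
  have := hg (π.copy (h i le_rfl hij).symm (h j hij le_rfl).symm)
  rwa [seg_congr h, wlen, Walk.edges_copy] at this

lemma edgeSet_congr {R : ℕ} {g g' : ℤ → Z2}
    (h : ∀ k : ℤ, -(R : ℤ) ≤ k → k ≤ R + 1 → g k = g' k) : edgeSet R g = edgeSet R g' :=
  image_congr fun k hk => by
    have := mem_Ico.1 hk
    simp only [h k this.1 (by omega), h (k + 1) (by omega) (by omega)]

/-- A piece of a sequence as a walk. -/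
lemma exists_walk_seg {g : ℤ → Z2} {i j : ℤ} (hij : i ≤ j)
    (hadj : ∀ k, i ≤ k → k < j → lattice.Adj (g k) (g (k + 1))) :
    ∃ p : lattice.Walk (g i) (g j), (∀ t, wlen t p = seg t g i j) ∧
      (p.length : ℤ) = j - i ∧ p.edges.toFinset = (Ico i j).image fun k => s(g k, g (k + 1)) := by
  obtain ⟨n, rfl⟩ : ∃ n : ℕ, j = i + n := ⟨(j - i).toNat, by omega⟩
  clear hij
  induction n generalizing i with
  | zero => exact ⟨Walk.nil.copy rfl (by simp), by simp [wlen, seg], by simp, by simp⟩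
  | succ n ih =>
    obtain ⟨p, hw, hl, he⟩ := ih (i := i + 1) fun k h1 h2 => hadj k (by omega) (by omega)
    refine ⟨(p.cons (hadj i le_rfl (by omega))).copy rfl (by push_cast; ring_nf),
      fun t => ?_, ?_, ?_⟩
    · rw [wlen, Walk.edges_copy, Walk.edges_cons, List.map_cons, List.sum_cons, ← wlen, hw]
      rw [seg_split t g (show i ≤ i + 1 by omega) (show i + 1 ≤ i + ((n + 1 : ℕ) : ℤ) by omega)]
      have h1 : Ico i (i + 1) = {i} := by ext k; simp only [mem_Ico, mem_singleton]; omega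
      have h2 : i + ((n + 1 : ℕ) : ℤ) = i + 1 + n := by push_cast; ring
      rw [h2]
      simp [seg, h1]
    · rw [Walk.length_copy, Walk.length_cons]
      push_cast
      omega
    · rw [Walk.edges_copy, Walk.edges_cons, List.toFinset_cons, he]
      have h1 : Ico i (i + ((n + 1 : ℕ) : ℤ)) = insert i (Ico (i + 1) (i + 1 + n)) := by
        ext k; simp only [mem_Ico, mem_insert]; omega
      rw [h1, image_insert]

lemma seg_nonneg {t : Sym2 Z2 → ℝ} (ht : ∀ f, 0 ≤ t f) (g : ℤ → Z2) (i j : ℤ) :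
    0 ≤ seg t g i j := sum_nonneg fun _ _ => ht _

/-- Pieces of geodesics are geodesics. -/
lemma GeoI.sub {t : Sym2 Z2 → ℝ} {g : ℤ → Z2} {i a b j : ℤ} (hg : GeoI t g i j) (hia : i ≤ a)
    (hab : a ≤ b) (hbj : b ≤ j) (hadj : ∀ k, i ≤ k → k < j → lattice.Adj (g k) (g (k + 1))) :
    GeoI t g a b := fun π => by
  obtain ⟨p, hp, -, -⟩ := exists_walk_seg hia fun k h1 h2 => hadj k h1 (by omega)
  obtain ⟨q, hq, -, -⟩ := exists_walk_seg hbj fun k h1 h2 => hadj k (by omega) h2
  have := hg ((p.append π).append q)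
  rw [wlen_append, wlen_append, hp, hq, seg_split t g hia (hab.trans hbj),
    seg_split t g hab hbj] at this
  linarith

namespace Win

variable {u v : Z2} {R : ℕ} {g : ℤ → Z2}

lemma mono (h : Win u v R g) {M : ℕ} (hM : M ≤ R) : Win u v M g :=
  ⟨h.zero, h.one, fun i h1 h2 => h.adj i (by omega) (by omega),
    h.inj.mono (Set.Icc_subset_Icc (by omega) (by omega))⟩

lemma congr (h : Win u v R g) {g' : ℤ → Z2}
    (hg : ∀ k : ℤ, -(R : ℤ) ≤ k → k ≤ R + 1 → g k = g' k) : Win u v R g' := by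
  refine ⟨?_, ?_, fun i h1 h2 => ?_, h.inj.congr fun k hk => hg k hk.1 hk.2⟩
  · rw [← hg 0 (by omega) (by omega), h.zero]
  · rw [← hg 1 (by omega) (by omega), h.one]
  · rw [← hg i h1 (by omega), ← hg (i + 1) (by omega) (by omega)]
    exact h.adj i h1 h2

lemma edge_inj (h : Win u v R g) {k l : ℤ} (hk : k ∈ Ico (-(R : ℤ)) (R + 1))
    (hl : l ∈ Ico (-(R : ℤ)) (R + 1)) (he : s(g k, g (k + 1)) = s(g l, g (l + 1))) : k = l := by
  rw [mem_Ico] at hk hl
  rcases Sym2.eq_iff.1 he with ⟨h1, -⟩ | ⟨h1, h2⟩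
  · exact h.inj ⟨hk.1, by omega⟩ ⟨hl.1, by omega⟩ h1
  · have e1 := h.inj ⟨hk.1, by omega⟩ ⟨by omega, by omega⟩ h1
    have e2 := h.inj ⟨by omega, by omega⟩ ⟨hl.1, by omega⟩ h2
    omega

lemma edge_mem (h : Win u v R g) : s(u, v) ∈ edgeSet R g :=
  mem_image.2 ⟨0, mem_Ico.2 ⟨by omega, by omega⟩, by simp [h.zero, h.one]⟩

lemma dist_le (h : Win u v R g) {k : ℤ} (h1 : -(R : ℤ) ≤ k) (h2 : k ≤ R + 1) :
    |(g k).1 - u.1| + |(g k).2 - u.2| ≤ |k| := by
  have step : ∀ n : ℕ, ((n : ℤ) ≤ R + 1 → |(g n).1 - u.1| + |(g n).2 - u.2| ≤ n) ∧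
      ((n : ℤ) ≤ R → |(g (-n)).1 - u.1| + |(g (-n)).2 - u.2| ≤ n) := by
    intro n
    induction n with
    | zero => simp [h.zero]
    | succ n ih =>
      constructor <;> intro hn <;> push_cast at hn ⊢
      · have ha : |(g (n : ℤ)).1 - (g ((n : ℤ) + 1)).1| + |(g (n : ℤ)).2 - (g ((n : ℤ) + 1)).2| = 1 :=
          h.adj n (by omega) (by omega)
        have := ih.1 (by omega)
        have := abs_sub_le (g ((n : ℤ) + 1)).1 (g (n : ℤ)).1 u.1
        have := abs_sub_le (g ((n : ℤ) + 1)).2 (g (n : ℤ)).2 u.2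
        have := abs_sub_comm (g ((n : ℤ) + 1)).1 (g (n : ℤ)).1
        have := abs_sub_comm (g ((n : ℤ) + 1)).2 (g (n : ℤ)).2
        omega
      · have ha : |(g (-(n : ℤ) - 1)).1 - (g (-(n : ℤ) - 1 + 1)).1|
            + |(g (-(n : ℤ) - 1)).2 - (g (-(n : ℤ) - 1 + 1)).2| = 1 :=
          h.adj (-(n : ℤ) - 1) (by omega) (by omega)
        rw [sub_add_cancel] at ha
        rw [neg_add, ← sub_eq_add_neg]
        have := ih.2 (by omega)
        have := abs_sub_le (g (-(n : ℤ) - 1)).1 (g (-(n : ℤ))).1 u.1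
        have := abs_sub_le (g (-(n : ℤ) - 1)).2 (g (-(n : ℤ))).2 u.2
        omega
  rcases le_total 0 k with hk | hk
  · lift k to ℕ using hk
    simpa using (step k).1 h2
  · obtain ⟨n, rfl⟩ : ∃ n : ℕ, k = -(n : ℤ) := ⟨(-k).toNat, by omega⟩
    simpa using (step n).2 (by omega)

end Win

/-! ### Segments -/

lemma self_mem_ball (u : Z2) (R : ℕ) : u ∈ ball u R := by
  simp only [ball, mem_product, mem_Icc]; omega

lemma ball_mono (u : Z2) {M R : ℕ} (h : M ≤ R) : ball u M ⊆ ball u R := fun x hx => by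
  simp only [ball, mem_product, mem_Icc] at hx ⊢; omega

lemma Win.mem_ball {u v : Z2} {R : ℕ} {g : ℤ → Z2} (h : Win u v R g) {k : ℤ}
    (h1 : -(R : ℤ) ≤ k) (h2 : k ≤ R + 1) : g k ∈ ball u (R + 1) := by
  have hd := h.dist_le h1 h2
  simp only [ball, mem_product, mem_Icc]
  push_cast
  rcases abs_cases ((g k).1 - u.1) with e1 | e1 <;> rcases abs_cases ((g k).2 - u.2) with e2 | e2 <;>
    rcases abs_cases k with e3 | e3 <;> omega

/-- The possible segments of scale `R` at `u`. -/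
abbrev Seg (u : Z2) (R : ℕ) : Type := ↥(Icc (-(R : ℤ)) ((R : ℤ) + 1)) → ↥(ball u (R + 1))

variable {u v : Z2}

open scoped Classical in
/-- A segment as a sequence. -/
def toFun {R : ℕ} (q : Seg u R) : ℤ → Z2 := fun i =>
  if h : i ∈ Icc (-(R : ℤ)) ((R : ℤ) + 1) then (q ⟨i, h⟩).1 else u

open scoped Classical in
/-- The segment of a sequence. -/
def ofFun (u : Z2) (R : ℕ) (g : ℤ → Z2) : Seg u R := fun i =>
  if h : g i.1 ∈ ball u (R + 1) then ⟨g i.1, h⟩ else ⟨u, self_mem_ball u (R + 1)⟩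

/-- Restriction to a smaller scale. -/
def res (M R : ℕ) (q : Seg u R) : Seg u M := ofFun u M (toFun q)

lemma toFun_ofFun {R : ℕ} {g : ℤ → Z2} {i : ℤ} (h1 : -(R : ℤ) ≤ i) (h2 : i ≤ R + 1)
    (hg : g i ∈ ball u (R + 1)) : toFun (ofFun u R g) i = g i := by
  simp [toFun, ofFun, h1, h2, hg]

lemma ofFun_toFun {R : ℕ} (q : Seg u R) : ofFun u R (toFun q) = q := by
  funext i
  simp [ofFun, toFun, i.2, (q i).2]

lemma res_self (R : ℕ) (q : Seg u R) : res R R q = q := ofFun_toFun q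

lemma res_trans {M L R : ℕ} (h1 : M ≤ L) (_h2 : L ≤ R) (q : Seg u R) :
    res M L (res L R q) = res M R q := by
  funext i
  have hi : i.1 ∈ Icc (-(L : ℤ)) ((L : ℤ) + 1) := by
    have := mem_Icc.1 i.2
    exact mem_Icc.2 ⟨by omega, by omega⟩
  by_cases h : toFun q i.1 ∈ ball u (M + 1)
  · simp [res, ofFun, toFun, hi] at h ⊢
    simp [h, ball_mono u (Nat.succ_le_succ h1) h]
  · by_cases h' : toFun q i.1 ∈ ball u (L + 1) <;> simp [res, ofFun, toFun, hi] at h h' ⊢ <;>
      simp [h, h', self_mem_ball]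

lemma toFun_res {M R : ℕ} (hMR : M ≤ R) {q : Seg u R} (hq : Win u v R (toFun q)) {i : ℤ}
    (h1 : -(M : ℤ) ≤ i) (h2 : i ≤ M + 1) : toFun (res M R q) i = toFun q i :=
  toFun_ofFun h1 h2 ((hq.mono hMR).mem_ball h1 h2)

/-- The window `q` is a geodesic. -/
def GeoWin (u v : Z2) (R : ℕ) (q : Seg u R) : Set (Sym2 Z2 → ℝ) :=
  {t | Win u v R (toFun q) ∧ GeoI t (toFun q) (-(R : ℤ)) ((R : ℤ) + 1)}

lemma geoWin_res {M R : ℕ} (hMR : M ≤ R) {q : Seg u R} {t : Sym2 Z2 → ℝ} (h : t ∈ GeoWin u v R q) :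
    t ∈ GeoWin u v M (res M R q) := by
  refine ⟨(h.1.mono hMR).congr fun k h1 h2 => (toFun_res hMR h.1 h1 h2).symm,
    (h.2.sub (by omega) (by omega) (by omega) fun k h1 h2 => h.1.adj k h1 (by omega)).congr
      (by omega) fun k h1 h2 => (toFun_res hMR h.1 h1 h2).symm⟩

/-- The segment is present: it extends to a geodesic window of every scale. -/
def Ext (u v : Z2) (R : ℕ) (q : Seg u R) : Set (Sym2 Z2 → ℝ) :=
  {t | ∀ n, R ≤ n → ∃ p : Seg u n, res R n p = q ∧ t ∈ GeoWin u v n p}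

lemma geoWin_of_ext {R : ℕ} {q : Seg u R} {t : Sym2 Z2 → ℝ} (h : t ∈ Ext u v R q) :
    t ∈ GeoWin u v R q := by
  obtain ⟨p, hp, ht⟩ := h R le_rfl
  rw [res_self] at hp
  exact hp ▸ ht

open scoped Classical in
/-- The least excess over the window `p` of the walks avoiding its middle part of scale `M`. -/
def winMargin (M n : ℕ) (p : Seg u n) (t : Sym2 Z2 → ℝ) : ℝ≥0∞ :=
  ⨅ π : lattice.Walk (toFun p (-(n : ℤ))) (toFun p ((n : ℤ) + 1)),
    if ∀ f ∈ edgeSet M (toFun p), f ∉ π.edges then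
      ENNReal.ofReal (wlen t π - seg t (toFun p) (-(n : ℤ)) ((n : ℤ) + 1))
    else ⊤

open scoped Classical in
/-- The margin of a segment. -/
def segMargin (u v : Z2) (R : ℕ) (q : Seg u R) (t : Sym2 Z2 → ℝ) : ℝ≥0∞ :=
  ⨅ (n : ℕ) (_ : R ≤ n), ⨆ p : Seg u n,
    if res R n p = q ∧ t ∈ GeoWin u v n p then winMargin R n p t else 0

/-! ### Measurability -/

lemma measurable_seg (g : ℤ → Z2) (i j : ℤ) : Measurable fun t => seg t g i j :=
  Finset.measurable_sum _ fun _ _ => measurable_pi_apply _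

lemma measurableSet_geoWin (R : ℕ) (q : Seg u R) : MeasurableSet (GeoWin u v R q) := by
  have e : GeoWin u v R q = {t | Win u v R (toFun q)} ∩ ⋂ π : lattice.Walk (toFun q (-(R : ℤ)))
      (toFun q ((R : ℤ) + 1)), {t | seg t (toFun q) (-(R : ℤ)) ((R : ℤ) + 1) ≤ wlen t π} := by
    ext t
    simp [GeoWin, GeoI]
  rw [e]
  exact (MeasurableSet.const _).inter
    (.iInter fun π => measurableSet_le (measurable_seg _ _ _) (measurable_wlen π))

lemma measurableSet_ext (R : ℕ) (q : Seg u R) : MeasurableSet (Ext u v R q) := by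
  have e : Ext u v R q = ⋂ (n : ℕ) (_ : R ≤ n), ⋃ (p : Seg u n) (_ : res R n p = q), GeoWin u v n p := by
    ext t
    simp [Ext]
  rw [e]
  exact .iInter fun n => .iInter fun _ => .iUnion fun p => .iUnion fun _ => measurableSet_geoWin n p

lemma measurable_winMargin (M n : ℕ) (p : Seg u n) : Measurable (winMargin M n p) := by
  classical
  refine Measurable.iInf fun π => ?_
  split_ifs
  · exact ((measurable_wlen π).sub (measurable_seg _ _ _)).ennreal_ofReal
  · exact measurable_const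

lemma measurable_segMargin (R : ℕ) (q : Seg u R) : Measurable (segMargin u v R q) := by
  classical
  refine Measurable.iInf fun n => Measurable.iInf fun _ => Measurable.iSup fun p => ?_
  by_cases h : res R n p = q
  · simp only [h, true_and]
    exact Measurable.ite (measurableSet_geoWin n p) (measurable_winMargin R n p) measurable_const
  · simp [h]

/-- A walk around the middle part of a window bounds its margin, on any piece containing it. -/
lemma winMargin_le {M n : ℕ} {p : Seg u n} {t : Sym2 Z2 → ℝ} (hp : Win u v n (toFun p)) {a b : ℤ}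
    (ha : -(n : ℤ) ≤ a) (ha' : a ≤ -(M : ℤ)) (hb' : (M : ℤ) + 1 ≤ b) (hb : b ≤ n + 1)
    (π : lattice.Walk (toFun p a) (toFun p b))
    (hπ : ∀ f ∈ edgeSet M (toFun p), f ∉ π.edges) :
    winMargin M n p t ≤ ENNReal.ofReal (wlen t π - seg t (toFun p) a b) := by
  classical
  obtain ⟨x, hx, -, hxe⟩ := exists_walk_seg ha fun k h1 h2 => hp.adj k h1 (by omega)
  obtain ⟨y, hy, -, hye⟩ := exists_walk_seg hb fun k h1 h2 => hp.adj k (by omega) (by omega)
  refine iInf_le_of_le ((x.append π).append y) ?_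
  rw [if_pos ?_]
  · rw [wlen_append, wlen_append, hx, hy, seg_split t _ ha (by omega : a ≤ (n : ℤ) + 1),
      seg_split t _ (by omega : a ≤ b) hb]
    exact le_of_eq (by ring_nf)
  · intro f hf hmem
    obtain ⟨l, hl, rfl⟩ := mem_image.1 hf
    rw [mem_Ico] at hl
    simp only [Walk.edges_append, List.mem_append] at hmem
    rcases hmem with (h | h) | h
    · rw [← List.mem_toFinset, hxe] at h
      obtain ⟨k, hk, he⟩ := mem_image.1 h
      rw [mem_Ico] at hk
      have := hp.edge_inj (mem_Ico.2 ⟨hk.1, by omega⟩) (mem_Ico.2 ⟨by omega, by omega⟩) he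
      omega
    · exact hπ _ hf h
    · rw [← List.mem_toFinset, hye] at h
      obtain ⟨k, hk, he⟩ := mem_image.1 h
      rw [mem_Ico] at hk
      have := hp.edge_inj (mem_Ico.2 ⟨by omega, by omega⟩) (mem_Ico.2 ⟨by omega, by omega⟩) he
      omega

/-! ### Lowering one weight on the segment -/

section lower

variable {t : Sym2 Z2 → ℝ} {f : Sym2 Z2} {ξ : Sym2 Z2 → ℝ}

lemma resample_self : resample {f} (t, ξ) f = ξ f := by simp [resample]

lemma resample_of_ne {f' : Sym2 Z2} (h : f' ≠ f) : resample {f} (t, ξ) f' = t f' := by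
  simp [resample, h]

lemma resample_nonneg (ht : ∀ f', 0 ≤ t f') (hs : 0 ≤ ξ f) (f' : Sym2 Z2) :
    0 ≤ resample {f} (t, ξ) f' := by
  by_cases h : f' = f
  · subst h; rwa [resample_self]
  · rw [resample_of_ne h]; exact ht f'

lemma wlen_resample_of_notMem {x y : Z2} (π : lattice.Walk x y) (h : f ∉ π.edges) :
    wlen (resample {f} (t, ξ)) π = wlen t π := by
  unfold wlen
  refine congrArg List.sum (List.map_congr_left fun f' hf' => resample_of_ne ?_)
  exact fun he => h (he ▸ hf')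

lemma wlen_resample_ge (hst : ξ f ≤ t f) {x y : Z2} {π : lattice.Walk x y} (hπ : π.IsPath) :
    wlen t π - (t f - ξ f) ≤ wlen (resample {f} (t, ξ)) π := by
  classical
  by_cases h : f ∈ π.edges
  · have hf : f ∈ π.edges.toFinset := List.mem_toFinset.2 h
    rw [wlen_path t hπ, wlen_path _ hπ, ← add_sum_erase _ _ hf, ← add_sum_erase _ _ hf,
      resample_self, sum_congr rfl fun f' hf' => resample_of_ne (mem_erase.1 hf').1]
    linarith
  · rw [wlen_resample_of_notMem π h]
    linarith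

lemma seg_resample {R : ℕ} {g : ℤ → Z2} (hg : Win u v R g) (hf : f ∈ edgeSet R g) :
    seg (resample {f} (t, ξ)) g (-(R : ℤ)) ((R : ℤ) + 1) =
      seg t g (-(R : ℤ)) ((R : ℤ) + 1) - (t f - ξ f) := by
  classical
  obtain ⟨k, hk, rfl⟩ := mem_image.1 hf
  rw [seg, seg, ← add_sum_erase _ _ hk, ← add_sum_erase _ _ hk, resample_self,
    sum_congr rfl fun l hl => resample_of_ne fun he =>
      (mem_erase.1 hl).1 (hg.edge_inj (mem_erase.1 hl).2 hk he)]
  ring

lemma edgeSet_subset {R n : ℕ} (h : R ≤ n) (g : ℤ → Z2) : edgeSet R g ⊆ edgeSet n g :=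
  image_subset_image (Ico_subset_Ico (by omega) (by omega))

/-- Lowering a weight of a geodesic window keeps it a geodesic and raises its margin. -/
lemma lower_geoWin (ht : ∀ f', 0 ≤ t f') (hs : 0 ≤ ξ f) (hst : ξ f ≤ t f) {R n : ℕ} (hRn : R ≤ n)
    {p : Seg u n} (hp : t ∈ GeoWin u v n p) (hf : f ∈ edgeSet R (toFun p)) :
    resample {f} (t, ξ) ∈ GeoWin u v n p ∧
      winMargin R n p t + ENNReal.ofReal (t f - ξ f) ≤ winMargin R n p (resample {f} (t, ξ)) := by
  classical
  have hseg := seg_resample (t := t) (ξ := ξ) hp.1 (edgeSet_subset hRn _ hf)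
  refine ⟨⟨hp.1, fun π => ?_⟩, le_iInf fun π => ?_⟩
  · refine le_trans ?_ (wlen_bypass_le (resample_nonneg ht hs) π)
    have := hp.2 π.bypass
    have := wlen_resample_ge (t := t) hst π.bypass_isPath
    rw [hseg]
    linarith
  · split_ifs with hπ
    · refine le_trans (add_le_add (iInf_le_of_le π (le_of_eq (if_pos hπ))) le_rfl) ?_
      have := hp.2 π
      rw [← ENNReal.ofReal_add (by linarith) (by linarith),
        wlen_resample_of_notMem π (hπ f hf), hseg]
      exact le_of_eq (by ring_nf)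
    · exact le_top

/-- Lowering a weight of a present segment keeps it present and raises its margin. -/
lemma lower_ext (ht : ∀ f', 0 ≤ t f') (hs : 0 ≤ ξ f) (hst : ξ f ≤ t f) {R : ℕ} {q : Seg u R}
    (hq : t ∈ Ext u v R q) (hf : f ∈ edgeSet R (toFun q)) :
    resample {f} (t, ξ) ∈ Ext u v R q ∧
      segMargin u v R q t + ENNReal.ofReal (t f - ξ f) ≤ segMargin u v R q (resample {f} (t, ξ)) := by
  classical
  have hfp : ∀ n, R ≤ n → ∀ p : Seg u n, res R n p = q → t ∈ GeoWin u v n p →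
      f ∈ edgeSet R (toFun p) := fun n hn p hpq hp => by
    subst hpq
    rwa [edgeSet_congr fun k h1 h2 => toFun_res hn hp.1 h1 h2] at hf
  refine ⟨fun n hn => ?_, le_iInf fun n => le_iInf fun hn => ?_⟩
  · obtain ⟨p, hpq, hp⟩ := hq n hn
    exact ⟨p, hpq, (lower_geoWin ht hs hst hn hp (hfp n hn p hpq hp)).1⟩
  · refine le_trans (add_le_add (iInf₂_le n hn) le_rfl) ?_
    obtain ⟨p₀, hpq₀, hp₀⟩ := hq n hn
    have : Nonempty (Seg u n) := ⟨p₀⟩
    rw [ENNReal.iSup_add]
    refine iSup_le fun p => ?_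
    by_cases h : res R n p = q ∧ t ∈ GeoWin u v n p
    · obtain ⟨h1, h2⟩ := lower_geoWin ht hs hst hn h.2 (hfp n hn p h.1 h.2)
      rw [if_pos h]
      refine h2.trans (le_iSup_of_le p ?_)
      rw [if_pos ⟨h.1, h1⟩]
    · obtain ⟨h1, h2⟩ := lower_geoWin ht hs hst hn hp₀ (hfp n hn p₀ hpq₀ hp₀)
      rw [if_neg h, zero_add]
      refine (le_add_self.trans h2).trans (le_iSup_of_le p₀ ?_)
      rw [if_pos ⟨hpq₀, h1⟩]

end lower

/-! ### Restriction and extension -/

lemma ext_down {M R : ℕ} (h : M ≤ R) {q : Seg u R} {t : Sym2 Z2 → ℝ} (hq : t ∈ Ext u v R q) :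
    t ∈ Ext u v M (res M R q) := fun n hn => by
  obtain ⟨p, hpq, hp⟩ := hq (max n R) (le_max_right _ _)
  refine ⟨res n (max n R) p, ?_, geoWin_res (le_max_left _ _) hp⟩
  rw [res_trans hn (le_max_left _ _), ← hpq, res_trans h (le_max_right _ _)]

lemma ext_up {M R : ℕ} (h : M ≤ R) {p : Seg u M} {t : Sym2 Z2 → ℝ} (hp : t ∈ Ext u v M p) :
    ∃ q, t ∈ Ext u v R q ∧ res M R q = p := by
  classical
  by_contra hne
  have hbad : ∀ q : Seg u R, ∃ n, R ≤ n ∧ (res M R q = p → ∀ p' : Seg u n,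
      res R n p' = q → t ∉ GeoWin u v n p') := by
    intro q
    by_contra hq
    push Not at hq
    exact hne ⟨q, fun n hn => (hq n hn).2, (hq R le_rfl).1⟩
  choose n hn hbad using hbad
  set N := max R (univ.sup n)
  obtain ⟨p', hp', ht'⟩ := hp N (h.trans (le_max_left _ _))
  set q := res R N p'
  have hqN : n q ≤ N := (le_sup (f := n) (mem_univ q)).trans (le_max_right _ _)
  refine hbad q ?_ (res (n q) N p') ?_ (geoWin_res hqN ht')
  · rw [res_trans h (le_max_left _ _), hp']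
  · exact res_trans (hn q) hqN p'

/-- Every window of a bigeodesic is present. -/
lemma ext_of_bigeodesic {t : Sym2 Z2 → ℝ} (ht : ∀ f, 0 ≤ t f) {g : ℤ → Z2}
    (hg : IsBigeodesic t g) (h0 : g 0 = u) (h1 : g 1 = v) (R : ℕ) :
    t ∈ Ext u v R (ofFun u R g) := by
  obtain ⟨hinj, hadj, hgeo⟩ := hg
  intro n hn
  have hw : ∀ m, Win u v m g := fun m => ⟨h0, h1, fun i _ _ => hadj i, hinj.injOn⟩
  have hval : ∀ k : ℤ, -(n : ℤ) ≤ k → k ≤ n + 1 → g k = toFun (ofFun u n g) k :=
    fun k a b => (toFun_ofFun a b ((hw n).mem_ball a b)).symm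
  refine ⟨ofFun u n g, ?_, (hw n).congr hval, GeoI.congr (by omega) hval fun π => ?_⟩
  · funext i
    have hi := mem_Icc.1 i.2
    have hm : g i.1 ∈ ball u (n + 1) := (hw n).mem_ball (by omega) (by omega)
    simp only [res, ofFun, toFun_ofFun (u := u) (R := n) (g := g) (by omega) (by omega) hm]
  · rw [seg, hgeo _ _ (by omega), passage]
    exact ciInf_le ⟨0, by rintro _ ⟨q, rfl⟩; exact wlen_nonneg ht q⟩ π

/-! ### Totals -/

/-- The capped margins of the present segments through `(u, v)`. -/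
def segSum (t : Sym2 Z2 → ℝ) (u v : Z2) (R S : ℕ) : ℝ≥0∞ :=
  ∑ q : Seg u R, (Ext u v R q).indicator (fun t => min (segMargin u v R q t) (S : ℝ≥0∞)) t

/-- The number of present segments through `(u, v)`. -/
def extCount (t : Sym2 Z2 → ℝ) (u v : Z2) (R : ℕ) : ℝ≥0∞ :=
  ∑ q : Seg u R, (Ext u v R q).indicator 1 t

/-- The budget: the capped margins through a given edge have bounded mean (part B). -/
def BudgetBound (μ : Measure ℝ) : Prop :=
  ∀ d : Z2, lattice.Adj 0 d → ∃ C : ℝ≥0∞, C ≠ ⊤ ∧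
    ∀ R S : ℕ, ∫⁻ t, segSum t 0 d R S ∂iidLaw (Sym2 Z2) μ ≤ C

lemma measurable_segSum (u v : Z2) (R S : ℕ) : Measurable fun t => segSum t u v R S :=
  Finset.measurable_sum _ fun q _ =>
    ((measurable_segMargin R q).min measurable_const).indicator (measurableSet_ext R q)

lemma measurable_extCount (u v : Z2) (R : ℕ) : Measurable fun t => extCount t u v R :=
  Finset.measurable_sum _ fun q _ => measurable_one.indicator (measurableSet_ext R q)

/-- Lowering the edge itself gives every segment a margin. -/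
lemma extCount_mul_le {t ξ : Sym2 Z2 → ℝ} (ht : ∀ f, 0 ≤ t f) (hs : 0 ≤ ξ s(u, v))
    (hst : ξ s(u, v) ≤ t s(u, v)) (R S : ℕ) :
    extCount t u v R * min (ENNReal.ofReal (t s(u, v) - ξ s(u, v))) (S : ℝ≥0∞) ≤
      segSum (resample {s(u, v)} (t, ξ)) u v R S := by
  rw [extCount, segSum, sum_mul]
  refine sum_le_sum fun q _ => ?_
  by_cases hq : t ∈ Ext u v R q
  · obtain ⟨h1, h2⟩ := lower_ext ht hs hst hq (geoWin_of_ext hq).1.edge_mem
    rw [Set.indicator_of_mem hq, Set.indicator_of_mem h1, Pi.one_apply, one_mul]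
    exact min_le_min_right _ (le_add_self.trans h2)
  · rw [Set.indicator_of_notMem hq, zero_mul]
    exact zero_le

end

end Vale.P158.Chain
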