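import Vale.Agent.P158.Translate
import Vale.Agent.P158.Chain.Seg

/-!
# P158: windows seen from a box, and translations

A geodesic window far larger than a box crosses it between two boundary points along a geodesic of
the box, and avoiding the middle part there costs at least its margin or the penalty.  Segments and
their margins move with the weights under translations.
-/

namespace Vale.P158.Chain

open MeasureTheory SimpleGraph Finset
open Vale.Agent.P158.Crossing (Rect)
open scoped ENNReal

noncomputable section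

/-- The piece `[i, i + n]` of an injective sequence is a path. -/
lemma exists_path_seg (t : Sym2 Z2 → ℝ) {g : ℤ → Z2} (n : ℕ) : ∀ i : ℤ,
    (∀ k, i ≤ k → k < i + n → lattice.Adj (g k) (g (k + 1))) →
    ∃ p : lattice.Walk (g i) (g (i + n)),
      p.support = (List.range (n + 1)).map (fun k : ℕ => g (i + k)) ∧
        wlen t p = seg t g i (i + n) := by
  induction n with
  | zero =>
    intro i _
    exact ⟨Walk.nil.copy rfl (by simp), by simp, by simp [wlen, seg]⟩
  | succ n ih =>
    intro i hadj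
    obtain ⟨p, hp, hw⟩ := ih i fun k h1 h2 => hadj k h1 (by omega)
    refine ⟨(p.concat (hadj (i + n) (by omega) (by push_cast; omega))).copy rfl
      (by push_cast; ring_nf), ?_, ?_⟩
    · rw [Walk.support_copy, Walk.support_concat, hp, List.range_succ (n := n + 1)]
      simp [add_assoc]
    · rw [seg_split t g (show i ≤ i + n by omega)
        (show i + (n : ℤ) ≤ i + ((n + 1 : ℕ) : ℤ) by push_cast; omega), ← hw]
      have h1 : Ico (i + (n : ℤ)) (i + ((n + 1 : ℕ) : ℤ)) = {i + (n : ℤ)} := by
        ext k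
        simp only [mem_Ico, mem_singleton]
        push_cast
        omega
      rw [show seg t g (i + (n : ℤ)) (i + ((n + 1 : ℕ) : ℤ)) = t s(g (i + n), g (i + n + 1)) by
        rw [seg, h1, sum_singleton]]
      simp [wlen, Walk.edges_concat]

/-- The vertices of a segment, in order. -/
def winList {u : Z2} {R : ℕ} (q : Seg u R) : List Z2 :=
  (List.range (2 * R + 2)).map fun i : ℕ => toFun q (-(R : ℤ) + i)

lemma range_map_infix (g : ℤ → Z2) {a i : ℤ} {m n : ℕ} (hai : a ≤ i) (h : i + m ≤ a + n) :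
    (List.range m).map (fun k : ℕ => g (i + k)) <:+: (List.range n).map fun k : ℕ => g (a + k) := by
  obtain ⟨d, rfl⟩ : ∃ d : ℕ, i = a + d := ⟨(i - a).toNat, by omega⟩
  obtain ⟨r, rfl⟩ : ∃ r : ℕ, n = d + m + r := ⟨n - (d + m), by omega⟩
  refine ⟨(List.range d).map fun k : ℕ => g (a + k),
    (List.range r).map (fun k : ℕ => g (a + (d + m + k : ℕ))), ?_⟩
  rw [List.range_add, List.range_add]
  simp [List.map_append, List.map_map, Function.comp_def, add_assoc]

lemma raise_of_forall_notMem {t : Sym2 Z2 → ℝ} {S : ℝ} {Q : Finset (Sym2 Z2)} {x y : Z2}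
    {p : lattice.Walk x y} (h : ∀ f ∈ p.edges, f ∉ Q) : wlen (raise t S Q) p = wlen t p := by
  unfold wlen
  refine congrArg List.sum (List.map_congr_left fun f hf => ?_)
  simp [raise, h f hf]

lemma wlen_add_le_raise {t : Sym2 Z2 → ℝ} {S : ℝ} (hS : 0 ≤ S) {Q : Finset (Sym2 Z2)} {x y : Z2}
    (p : lattice.Walk x y) {f : Sym2 Z2} (hf : f ∈ p.edges) (hfQ : f ∈ Q) :
    wlen t p + S ≤ wlen (raise t S Q) p := by
  have h1 : wlen (raise t S Q) p =
      wlen t p + (p.edges.map fun g => if g ∈ Q then S else 0).sum := List.sum_map_add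
  have h2 : S ≤ (p.edges.map fun g => if g ∈ Q then S else 0).sum := by
    refine List.single_le_sum (fun x hx => ?_) _ (List.mem_map.2 ⟨f, hf, by simp [hfQ]⟩)
    obtain ⟨g, -, rfl⟩ := List.mem_map.1 hx
    split_ifs <;> linarith
  linarith

variable {u v : Z2} {t : Sym2 Z2 → ℝ}

/-- A large geodesic window crosses the box on a geodesic of the box, and avoiding its middle
part there costs at least the margin or the penalty. -/
theorem exists_crossing (ht : ∀ f, 0 ≤ t f) {R n N : ℕ} (hN : supDist 0 u + R + 2 ≤ N)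
    (hn : (2 * N + 3) ^ 2 ≤ n) (hRn : R ≤ n) {p : Seg u n} (hp : t ∈ GeoWin u v n p) {S : ℝ}
    (hS : 0 ≤ S) :
    ∃ x y : Z2, (sq N).Bdry x ∧ (sq N).Bdry y ∧
      (∃ w : lattice.Walk x y, IsGeoU t (box N) w ∧
        (List.range (2 * R + 2)).map (fun i : ℕ => toFun p (-(R : ℤ) + i)) <:+: w.support) ∧
      min (winMargin R n p t) (ENNReal.ofReal S) ≤
        ENNReal.ofReal (boxMargin t N S (edgeSet R (toFun p)) x y) := by
  classical
  obtain ⟨hwin, hgeo⟩ := hp
  set g := toFun p
  set B := (Icc (-(N : ℤ) - 1) (N + 1)) ×ˢ (Icc (-(N : ℤ) - 1) (N + 1))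
  have hB : B.card = (2 * N + 3) ^ 2 := by
    rw [card_product, Int.card_Icc, show ((N : ℤ) + 1 + 1 - (-(N : ℤ) - 1)).toNat = 2 * N + 3 by omega,
      pow_two]
  have hmem : ∀ w, (sq N).Mem w ↔ w ∈ B := fun w => by
    simp only [B, Rect.Mem, Chain.sq, mem_product, mem_Icc]
    tauto
  have hnear : ∀ k : ℤ, -(R : ℤ) ≤ k → k ≤ R + 1 → (sq N).Mem (g k) := fun k h1 h2 => by
    have := (hwin.mono hRn).mem_ball h1 h2
    simp only [Chain.mem_ball, supDist] at this
    simp only [supDist] at hN
    simp only [Rect.Mem, Chain.sq]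
    simp only [Prod.fst_zero, Prod.snd_zero, sub_zero] at hN
    omega
  -- both ends leave the box
  have hout : ∀ lo : ℤ, -(n : ℤ) ≤ lo → lo ≤ 0 → ∃ k ∈ Icc lo (lo + n), ¬(sq N).Mem (g k) := by
    intro lo h1 h2
    by_contra! h
    have hc := card_le_card (s := (Icc lo (lo + n)).image g) (t := B) fun w hw => by
      obtain ⟨k, hk, rfl⟩ := mem_image.1 hw
      exact (hmem _).1 (h k hk)
    rw [card_image_of_injOn (hwin.inj.mono fun k hk => ?_), Int.card_Icc, hB] at hc
    · omega
    · simp only [coe_Icc, Set.mem_Icc] at hk ⊢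
      omega
  have hexb : ∃ k : ℕ, ¬(sq N).Mem (g k) := by
    obtain ⟨k, hk, hko⟩ := hout 0 (by omega) le_rfl
    rw [mem_Icc] at hk
    exact ⟨k.toNat, by rwa [Int.toNat_of_nonneg hk.1]⟩
  have hexa : ∃ k : ℕ, ¬(sq N).Mem (g (-(k : ℤ))) := by
    obtain ⟨k, hk, hko⟩ := hout (-(n : ℤ)) le_rfl (by omega)
    rw [mem_Icc] at hk
    exact ⟨(-k).toNat, by rwa [Int.toNat_of_nonneg (by omega), neg_neg]⟩
  set kb := Nat.find hexb with hkb
  set ka := Nat.find hexa with hka
  have hbn : (kb : ℤ) ≤ n := by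
    obtain ⟨k, hk, hko⟩ := hout 0 (by omega) le_rfl
    rw [mem_Icc] at hk
    have : kb ≤ k.toNat := Nat.find_le (by rwa [Int.toNat_of_nonneg hk.1])
    omega
  have han : (ka : ℤ) ≤ n := by
    obtain ⟨k, hk, hko⟩ := hout (-(n : ℤ)) le_rfl (by omega)
    rw [mem_Icc] at hk
    have : ka ≤ (-k).toNat := Nat.find_le (by rwa [Int.toNat_of_nonneg (by omega), neg_neg])
    omega
  have hbR : R + 2 ≤ kb := by
    by_contra h
    exact Nat.find_spec hexb (hnear kb (by omega) (by omega))
  have haR : R + 1 ≤ ka := by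
    by_contra h
    exact Nat.find_spec hexa (hnear (-(ka : ℤ)) (by omega) (by omega))
  set a : ℤ := -(ka : ℤ) + 1
  set b : ℤ := (kb : ℤ) - 1
  have hin : ∀ k : ℤ, a ≤ k → k ≤ b → (sq N).Mem (g k) := by
    intro k h1 h2
    rcases le_total 0 k with h | h
    · lift k to ℕ using h
      exact not_not.1 (Nat.find_min hexb (show k < kb by omega))
    · obtain ⟨d, rfl⟩ : ∃ d : ℕ, k = -(d : ℤ) := ⟨(-k).toNat, by omega⟩
      exact not_not.1 (Nat.find_min hexa (show d < ka by omega))
  have hx : (sq N).Bdry (g a) := by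
    refine bdry_of_adj (w := g (a - 1)) ?_ (hin a le_rfl (by omega)) ?_
    · have := hwin.adj (a - 1) (by omega) (by omega)
      rw [sub_add_cancel] at this
      exact this.symm
    · rw [show a - 1 = -(ka : ℤ) by omega]
      exact Nat.find_spec hexa
  have hy : (sq N).Bdry (g b) := by
    refine bdry_of_adj (hwin.adj b (by omega) (by omega)) (hin b (by omega) le_rfl) ?_
    rw [show b + 1 = (kb : ℤ) by omega]
    exact Nat.find_spec hexb
  obtain ⟨m, hm⟩ : ∃ m : ℕ, b = a + m := ⟨(b - a).toNat, by omega⟩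
  obtain ⟨w, hw, hwl⟩ := exists_path_seg t (g := g) m a fun k h1 h2 =>
    hwin.adj k (by omega) (by omega)
  have hsub : GeoI t g a b := hgeo.sub (by omega) (by omega) (by omega) fun k h1 h2 =>
    hwin.adj k h1 (by omega)
  have hbox : ∀ z ∈ w.support, z ∈ box N := fun z hz => by
    rw [hw, List.mem_map] at hz
    obtain ⟨k, hk, rfl⟩ := hz
    rw [List.mem_range] at hk
    exact hin _ (by omega) (by omega)
  set w' := w.copy rfl (show g (a + m) = g b by rw [hm])
  have hw' : wlen t w' = seg t g a b := by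
    simp only [w', wlen, Walk.edges_copy]
    rw [hm]
    exact hwl
  have hgeoU : IsGeoU t (box N) w' := by
    refine ⟨Walk.IsPath.mk' ?_, fun z hz => hbox z (by simpa [w'] using hz), fun π _ _ => ?_⟩
    · simp only [w', Walk.support_copy, hw]
      refine List.Nodup.map_on (fun i hi j hj hij => ?_) List.nodup_range
      rw [List.mem_range] at hi hj
      have := hwin.inj ⟨by omega, by omega⟩ ⟨by omega, by omega⟩ hij
      omega
    · rw [hw']
      exact hsub π
  refine ⟨g a, g b, hx, hy, ⟨w', hgeoU, ?_⟩, ?_⟩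
  · rw [show w'.support = w.support by simp [w'], hw]
    exact range_map_infix g (by omega) (by omega)
  set μ' := min (winMargin R n p t) (ENNReal.ofReal S) with hμ'
  have hfin : μ' ≠ ⊤ := ne_top_of_le_ne_top ENNReal.ofReal_ne_top (min_le_right _ _)
  rw [← ENNReal.ofReal_toReal hfin]
  refine ENNReal.ofReal_le_ofReal ?_
  rw [boxMargin, ← hgeoU.wlen_eq_passU ht, hw', le_sub_iff_add_le]
  refine le_passU hgeoU.joined fun π hπ => ?_
  by_cases hhit : ∃ f ∈ π.edges, f ∈ edgeSet R g
  · obtain ⟨f, hf, hfQ⟩ := hhit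
    have h1 := wlen_add_le_raise (t := t) hS π hf hfQ
    have h2 : μ'.toReal ≤ S := ENNReal.toReal_le_of_le_ofReal hS (min_le_right _ _)
    have h3 := hsub π
    linarith
  · push Not at hhit
    rw [raise_of_forall_notMem hhit]
    have h1 : μ' ≤ ENNReal.ofReal (wlen t π - seg t g a b) :=
      (min_le_left _ _).trans (winMargin_le hwin (by omega) (by omega) (by omega) (by omega) π
        fun f hf hmem => hhit f hmem hf)
    have h2 := ENNReal.toReal_le_of_le_ofReal (sub_nonneg.2 (hsub π)) h1
    linarith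

/-- **Exit lemma.** A present segment near the middle lies on a geodesic of the box between
boundary points, whose margin in the box is at least the margin of the segment or the penalty. -/
theorem exists_box_pair (ht : ∀ f, 0 ≤ t f) {R N : ℕ} {q : Seg u R} (hq : t ∈ Ext u v R q)
    (hN : supDist 0 u + R + 2 ≤ N) {S : ℝ} (hS : 0 ≤ S) :
    ∃ x y : Z2, (sq N).Bdry x ∧ (sq N).Bdry y ∧
      (∃ w : lattice.Walk x y, IsGeoU t (box N) w ∧ winList q <:+: w.support) ∧
      min (segMargin u v R q t) (ENNReal.ofReal S) ≤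
        ENNReal.ofReal (boxMargin t N S (edgeSet R (toFun q)) x y) := by
  classical
  set n := max R ((2 * N + 3) ^ 2)
  have hne : (univ.filter fun p : Seg u n => res R n p = q ∧ t ∈ GeoWin u v n p).Nonempty := by
    obtain ⟨p, hp⟩ := hq n (le_max_left _ _)
    exact ⟨p, mem_filter.2 ⟨mem_univ _, hp⟩⟩
  obtain ⟨p, hp, hmax⟩ := exists_max_image _ (fun p => winMargin R n p t) hne
  obtain ⟨hpq, hpt⟩ := (mem_filter.1 hp).2
  obtain ⟨x, y, hx, hy, ⟨w, hw, hinf⟩, hle⟩ :=
    exists_crossing ht hN (le_max_right _ _) (le_max_left _ _) hpt hS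
  have hval : ∀ k : ℤ, -(R : ℤ) ≤ k → k ≤ R + 1 → toFun q k = toFun p k := fun k h1 h2 => by
    rw [← hpq]
    exact toFun_res (le_max_left _ _) hpt.1 h1 h2
  refine ⟨x, y, hx, hy, ⟨w, hw, ?_⟩, ?_⟩
  · refine Eq.mpr (congrArg (fun l => l <:+: w.support) ?_) hinf
    exact List.map_congr_left fun i hi => by
      rw [List.mem_range] at hi
      exact hval _ (by omega) (by omega)
  · rw [edgeSet_congr hval]
    refine le_trans (min_le_min_right _ ?_) hle
    refine (iInf₂_le n (le_max_left _ _)).trans (iSup_le fun p' => ?_)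
    split_ifs with h
    · exact hmax p' (mem_filter.2 ⟨mem_univ _, h⟩)
    · exact zero_le

open scoped Classical in
/-- The capped margins through an edge near the middle are paid by box margins. -/
theorem segSum_le (ht : ∀ f, 0 ≤ t f) {R N : ℕ} (hN : supDist 0 u + R + 2 ≤ N) (S : ℕ) :
    ∃ x y : Seg u R → Z2, (∀ q, t ∈ Ext u v R q → (sq N).Bdry (x q) ∧ (sq N).Bdry (y q) ∧
        ∃ w : lattice.Walk (x q) (y q), IsGeoU t (box N) w ∧ winList q <:+: w.support) ∧
      segSum t u v R S ≤ ∑ q ∈ univ.filter (fun q => t ∈ Ext u v R q),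
        ENNReal.ofReal (boxMargin t N S (edgeSet R (toFun q)) (x q) (y q)) := by
  have h : ∀ q : Seg u R, ∃ x y : Z2, t ∈ Ext u v R q → ((sq N).Bdry x ∧ (sq N).Bdry y ∧
      ∃ w : lattice.Walk x y, IsGeoU t (box N) w ∧ winList q <:+: w.support) ∧
      min (segMargin u v R q t) (S : ℝ≥0∞) ≤
        ENNReal.ofReal (boxMargin t N S (edgeSet R (toFun q)) x y) := fun q => by
    by_cases hq : t ∈ Ext u v R q
    · obtain ⟨x, y, hx, hy, hw, hle⟩ := exists_box_pair ht hq hN (Nat.cast_nonneg S)
      rw [ENNReal.ofReal_natCast] at hle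
      exact ⟨x, y, fun _ => ⟨⟨hx, hy, hw⟩, hle⟩⟩
    · exact ⟨0, 0, fun h => absurd h hq⟩
  choose x y hxy using h
  refine ⟨x, y, fun q hq => (hxy q hq).1, ?_⟩
  rw [segSum, sum_filter]
  refine sum_le_sum fun q _ => ?_
  by_cases hq : t ∈ Ext u v R q
  · rw [Set.indicator_of_mem hq, if_pos hq]
    exact (hxy q hq).2
  · rw [Set.indicator_of_notMem hq]
    exact zero_le

/-! ### Translations -/

section shift

variable (a : Z2)

lemma add_mem_ball {z w : Z2} {R : ℕ} : w + a ∈ ball (z + a) R ↔ w ∈ ball z R := by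
  simp only [ball, mem_product, mem_Icc, Prod.fst_add, Prod.snd_add]
  omega

/-- Translation of segments. -/
def shiftSeg (u : Z2) (R : ℕ) : Seg u R ≃ Seg (u + a) R where
  toFun q i := ⟨(q i).1 + a, (add_mem_ball a).2 (q i).2⟩
  invFun q i := ⟨(q i).1 - a, (add_mem_ball a).1 (by rw [sub_add_cancel]; exact (q i).2)⟩
  left_inv q := funext fun i => Subtype.ext (add_sub_cancel_right _ _)
  right_inv q := funext fun i => Subtype.ext (sub_add_cancel _ _)

lemma toFun_shiftSeg {R : ℕ} (q : Seg u R) (i : ℤ) :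
    toFun (shiftSeg a u R q) i = toFun q i + a := by
  unfold toFun
  split_ifs <;> rfl

lemma res_shiftSeg {M R : ℕ} (q : Seg u R) :
    res M R (shiftSeg a u R q) = shiftSeg a u M (res M R q) := by
  funext i
  simp only [res, ofFun, toFun_shiftSeg, add_mem_ball]
  split_ifs with h <;> simp [shiftSeg, ofFun, h]

lemma win_shift {R : ℕ} (g : ℤ → Z2) :
    Win (u + a) (v + a) R (fun i => g i + a) ↔ Win u v R g := by
  have hadj : ∀ x y : Z2, lattice.Adj (x + a) (y + a) ↔ lattice.Adj x y := fun x y => by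
    simp [lattice]
  refine ⟨fun h => ⟨add_right_cancel h.zero, add_right_cancel h.one,
      fun i h1 h2 => (hadj _ _).1 (h.adj i h1 h2),
      fun i hi j hj e => h.inj hi hj (show g i + a = g j + a by rw [e])⟩,
    fun h => ⟨congrArg (· + a) h.zero, congrArg (· + a) h.one,
      fun i h1 h2 => (hadj _ _).2 (h.adj i h1 h2),
      fun i hi j hj e => h.inj hi hj (add_right_cancel e)⟩⟩

/-- A walk between translated points, moved back. -/
def pullWalk {x y : Z2} (π : lattice.Walk (x + a) (y + a)) : lattice.Walk x y :=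
  (π.map (shiftHom (-a))).copy (by simp) (by simp)

lemma edges_pullWalk {x y : Z2} (π : lattice.Walk (x + a) (y + a)) :
    (pullWalk a π).edges = π.edges.map (shiftEdge (-a)) := by
  rw [pullWalk, Walk.edges_copy, Walk.edges_map]
  rfl

lemma shiftEdge_neg_cancel (f : Sym2 Z2) : shiftEdge a (shiftEdge (-a) f) = f := by
  induction f using Sym2.ind
  simp

lemma wlen_pullWalk {x y : Z2} (π : lattice.Walk (x + a) (y + a)) :
    wlen (shiftCfg a t) (pullWalk a π) = wlen t π := by
  rw [wlen, wlen, edges_pullWalk, List.map_map]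
  exact congrArg List.sum (List.map_congr_left fun f _ => by
    simp [shiftCfg, shiftEdge_neg_cancel])

lemma seg_shift (g : ℤ → Z2) (i j : ℤ) :
    seg t (fun k => g k + a) i j = seg (shiftCfg a t) g i j := by
  simp [seg, shiftCfg]

lemma geoI_shift (g : ℤ → Z2) (i j : ℤ) :
    GeoI t (fun k => g k + a) i j ↔ GeoI (shiftCfg a t) g i j := by
  simp only [GeoI, seg_shift]
  refine ⟨fun h π => ?_, fun h π => ?_⟩
  · rw [wlen_shiftCfg]
    exact h (π.map (shiftHom a))
  · rw [← wlen_pullWalk a π]
    exact h _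

lemma geoWin_shift {R : ℕ} (q : Seg u R) :
    t ∈ GeoWin (u + a) (v + a) R (shiftSeg a u R q) ↔ shiftCfg a t ∈ GeoWin u v R q := by
  simp only [GeoWin, Set.mem_ofPred_eq,
    show toFun (shiftSeg a u R q) = fun i => toFun q i + a from funext (toFun_shiftSeg a q),
    win_shift, geoI_shift]

lemma shiftEdge_mem_edgeSet {R : ℕ} (g : ℤ → Z2) (f : Sym2 Z2) :
    shiftEdge a f ∈ edgeSet R (fun i => g i + a) ↔ f ∈ edgeSet R g := by
  simp only [edgeSet, mem_image, ← shiftEdge_mk, EmbeddingLike.apply_eq_iff_eq]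

lemma winMargin_shift {M n : ℕ} (p : Seg u n) :
    winMargin M n (shiftSeg a u n p) t = winMargin M n p (shiftCfg a t) := by
  classical
  have hg : toFun (shiftSeg a u n p) = fun i => toFun p i + a := funext (toFun_shiftSeg a p)
  unfold winMargin
  rw [hg, seg_shift]
  refine le_antisymm (le_iInf fun π => ?_) (le_iInf fun π => ?_)
  · split_ifs with hπ
    · refine iInf_le_of_le (π.map (shiftHom a)) (le_of_eq ((if_pos ?_).trans ?_))
      · intro f hf hmem
        obtain ⟨f', hf', rfl⟩ : ∃ f' ∈ π.edges, shiftEdge a f' = f :=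
          List.mem_map.1 ((congrArg (f ∈ ·) (Walk.edges_map (shiftHom a) π)).mp hmem)
        exact hπ f' ((shiftEdge_mem_edgeSet a _ f').1 hf) hf'
      · rw [wlen_shiftCfg]
        rfl
    · exact le_top
  · split_ifs with hπ
    · refine iInf_le_of_le (pullWalk a π) (le_of_eq ((if_pos ?_).trans ?_))
      swap
      · rw [wlen_pullWalk]
      intro f hf hmem
      rw [edges_pullWalk, List.mem_map] at hmem
      obtain ⟨f', hf', rfl⟩ := hmem
      refine hπ f' ?_ hf'
      rw [← shiftEdge_neg_cancel a f']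
      exact (shiftEdge_mem_edgeSet a _ _).2 hf
    · exact le_top

lemma ext_shift {R : ℕ} (q : Seg u R) :
    t ∈ Ext (u + a) (v + a) R (shiftSeg a u R q) ↔ shiftCfg a t ∈ Ext u v R q := by
  simp only [Ext, Set.mem_ofPred_eq]
  refine forall₂_congr fun n hn => ?_
  rw [(shiftSeg a u n).surjective.exists]
  refine exists_congr fun p => ?_
  rw [res_shiftSeg, EmbeddingLike.apply_eq_iff_eq, geoWin_shift]

lemma segMargin_shift {R : ℕ} (q : Seg u R) :
    segMargin (u + a) (v + a) R (shiftSeg a u R q) t = segMargin u v R q (shiftCfg a t) := by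
  classical
  refine iInf_congr fun n => iInf_congr fun hn => ?_
  rw [← (shiftSeg a u n).iSup_comp]
  refine iSup_congr fun p => ?_
  simp only [res_shiftSeg, EmbeddingLike.apply_eq_iff_eq, geoWin_shift, winMargin_shift]

/-- Translation covariance of the capped margins. -/
theorem segSum_shift (t : Sym2 Z2 → ℝ) (u v : Z2) (R S : ℕ) :
    segSum (shiftCfg a t) u v R S = segSum t (u + a) (v + a) R S := by
  rw [segSum, segSum, ← (shiftSeg a u R).sum_comp]
  refine sum_congr rfl fun q _ => ?_
  by_cases h : shiftCfg a t ∈ Ext u v R q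
  · rw [Set.indicator_of_mem h, Set.indicator_of_mem ((ext_shift a q).2 h), segMargin_shift]
  · rw [Set.indicator_of_notMem h, Set.indicator_of_notMem fun h' => h ((ext_shift a q).1 h')]

/-- Translation covariance of the count. -/
theorem extCount_shift (t : Sym2 Z2 → ℝ) (u v : Z2) (R : ℕ) :
    extCount (shiftCfg a t) u v R = extCount t (u + a) (v + a) R := by
  rw [extCount, extCount, ← (shiftSeg a u R).sum_comp]
  refine sum_congr rfl fun q _ => ?_
  by_cases h : shiftCfg a t ∈ Ext u v R q
  · rw [Set.indicator_of_mem h, Set.indicator_of_mem ((ext_shift a q).2 h)]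
    rfl
  · rw [Set.indicator_of_notMem h, Set.indicator_of_notMem fun h' => h ((ext_shift a q).1 h')]

/-- The mean capped margin does not depend on the position. -/
theorem lintegral_segSum_shift (μ : Measure ℝ) [IsProbabilityMeasure μ] (u v : Z2) (R S : ℕ) :
    ∫⁻ t, segSum t (u + a) (v + a) R S ∂iidLaw (Sym2 Z2) μ =
      ∫⁻ t, segSum t u v R S ∂iidLaw (Sym2 Z2) μ := by
  rw [← (measurePreserving_shiftCfg μ a).lintegral_comp (measurable_segSum u v R S)]
  exact lintegral_congr fun t => (segSum_shift a t u v R S).symm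

end shift

end

end Vale.P158.Chain
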