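import Vale.Agent.P158.Chain.BoxBudget
import Vale.Agent.P158.Chain.SegBox

/-!
# P158, part B: the budget in expectation

In a good box the capped margins of the segments through an edge near the middle are paid by the
budget of that edge, unless some boundary point has a branch point nearby.  The edge budgets add up
to a constant times the area, branch points are rare and bad boxes are unlikely; averaging over the
middle bounds the mean by a constant independent of the scale and of the cap.
-/

open MeasureTheory Filter Topology Finset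
open scoped ENNReal

namespace Vale.P158.Chain

open Vale.Agent.P158.Crossing (Rect)

noncomputable section

variable {t : Sym2 Z2 → ℝ}

lemma boxMargin_nonneg (ht : ∀ f, 0 ≤ t f) {N : ℕ} {S : ℝ} (hS : 0 ≤ S) (Q : Finset (Sym2 Z2))
    {x y : Z2} (h : JoinedIn (box N) x y) : 0 ≤ boxMargin t N S Q x y := by
  rw [boxMargin, sub_nonneg]
  refine le_passU h fun p hp => (passU_le ht p hp).trans (List.sum_le_sum fun f _ => ?_)
  simp only [raise]
  split_ifs <;> linarith

lemma winList_injective (u : Z2) (R : ℕ) : Function.Injective (winList : Seg u R → List Z2) := by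
  intro q q' h
  funext i
  have hi := Finset.mem_Icc.1 i.2
  have hlt : ((i.1 + (R : ℤ)).toNat) < 2 * R + 2 := by omega
  have h' := congrArg (fun l : List Z2 => l[(i.1 + (R : ℤ)).toNat]?) h
  have hcast : (-(R : ℤ) + ((i.1 + (R : ℤ)).toNat : ℕ)) = i.1 := by omega
  simp only [winList, List.getElem?_map, List.getElem?_range hlt, Option.map_some,
    Option.some.injEq, hcast, toFun, dif_pos i.2] at h'
  exact Subtype.ext h'

open scoped Classical in
/-- The capped margins through an edge near the middle of a good box are at most its budget. -/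
theorem segSum_le_edgeBudget (ht : ∀ f, 0 < t f) (hu : PathUnique t) {N : ℕ} {K : ℝ} {L o : ℕ}
    {A : Finset (ℕ × ℕ)} (hgood : IsGood t N K L o A) {z z' : Z2} {R : ℕ}
    (hmid : supDist 0 z + R + 2 ≤ N / 2) (hbr : ¬BrNear t N z (R + 1)) (S : ℕ) :
    segSum t z z' R S ≤ ENNReal.ofReal (edgeBudget t N A s(z, z')) := by
  have ht0 : ∀ f, 0 ≤ t f := fun f => (ht f).le
  obtain ⟨x, y, hxy, hle⟩ := segSum_le (v := z') ht0 (R := R) (N := N) (u := z) (by omega) S
  set W := univ.filter fun q : Seg z R => t ∈ Ext z z' R q with hW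
  set x' := Function.extend (winList : Seg z R → List Z2) x fun _ => 0
  set y' := Function.extend (winList : Seg z R → List Z2) y fun _ => 0
  set Q' := Function.extend (winList : Seg z R → List Z2) (fun q => edgeSet R (toFun q)) fun _ => ∅
  have hinj := winList_injective z R
  have hb := segs_budget ht hu hgood (Nat.cast_nonneg S) hmid hbr (W.image winList) Q' x' y'
    (z' := z') (fun l hl => by
      obtain ⟨q, hq, rfl⟩ := mem_image.1 hl
      have hq' := (mem_filter.1 hq).2
      obtain ⟨hx, hy, hw⟩ := hxy q hq'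
      have hwin := (geoWin_of_ext hq').1
      simp only [x', y', hinj.extend_apply]
      refine ⟨by simp [winList], ?_, ?_, hx, hy, hw⟩
      · simp [winList, List.getElem?_range (show R < 2 * R + 2 by omega), hwin.zero]
      · simp [winList, List.getElem?_range (show R + 1 < 2 * R + 2 by omega), hwin.one]) (by
      intro l hl f hf
      obtain ⟨q, -, rfl⟩ := mem_image.1 hl
      simp only [Q', hinj.extend_apply, edgeSet, mem_image, Finset.mem_Ico] at hf
      obtain ⟨k, hk, rfl⟩ := hf
      refine ⟨toFun q k, Sym2.mem_mk_left _ _, List.mem_map.2 ⟨(k + R).toNat, ?_, ?_⟩⟩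
      · rw [List.mem_range]; omega
      · congr 1; omega)
  refine hle.trans ?_
  rw [← ENNReal.ofReal_sum_of_nonneg fun q hq => ?_]
  · refine ENNReal.ofReal_le_ofReal (le_trans (le_of_eq ?_) hb)
    rw [sum_image fun q _ q' _ h => hinj h]
    exact sum_congr rfl fun q _ => by simp only [x', y', Q', hinj.extend_apply]
  · obtain ⟨-, -, w, hw, -⟩ := hxy q (mem_filter.1 hq).2
    exact boxMargin_nonneg ht0 (Nat.cast_nonneg S) _ hw.joined

/-- The trivial bound on the capped margins. -/
lemma segSum_le_card (t : Sym2 Z2 → ℝ) (z z' : Z2) (R S : ℕ) :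
    segSum t z z' R S ≤ ((Fintype.card (Seg (0 : Z2) R) * S : ℕ) : ℝ≥0∞) := by
  have hcard : Fintype.card (Seg z R) = Fintype.card (Seg (0 : Z2) R) :=
    (Fintype.card_congr ((shiftSeg z 0 R).trans (Equiv.cast (by rw [zero_add])))).symm
  calc segSum t z z' R S ≤ ∑ _q : Seg z R, (S : ℝ≥0∞) := sum_le_sum fun q _ => by
        by_cases h : t ∈ Ext z z' R q
        · rw [Set.indicator_of_mem h]; exact min_le_right _ _
        · rw [Set.indicator_of_notMem h]; exact zero_le
    _ = _ := by rw [sum_const, card_univ, hcard, nsmul_eq_mul]; push_cast; rfl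

lemma card_ball (z : Z2) (r : ℕ) : (ball z r).card = (2 * r + 1) * (2 * r + 1) := by
  simp only [ball, card_product, Int.card_Icc]
  congr 1 <;> omega

lemma supDist_comm' (u v : Z2) : supDist u v = supDist v u := by
  simp only [supDist]; omega

/-- Branch points near a given place, added over the middle. -/
theorem sum_brNear_le (μ : Measure ℝ) [IsProbabilityMeasure μ] {N r : ℕ} {B : ℝ≥0∞}
    (hN : N / 8 + r ≤ N / 2)
    (hB : ∀ y : Z2, (sq N).Bdry y →
      ∑ v ∈ ball 0 (N / 2), iidLaw (Sym2 Z2) μ {t | IsBranch t (sq N) y v} ≤ B) :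
    ∑ z ∈ ball 0 (N / 8), iidLaw (Sym2 Z2) μ {t | BrNear t N z r} ≤
      ((8 * N + 8) * ((2 * r + 1) * (2 * r + 1)) : ℕ) * B := by
  classical
  set n := (loop N).n
  have hn : n = 8 * N + 8 := by
    simp only [n, loop, boundaryLoop_n, perim, sq]
    omega
  set f : ℕ → Z2 → ℝ≥0∞ := fun i v =>
    iidLaw (Sym2 Z2) μ {t | IsBranch t (sq N) ((loop N).x i) v}
  have h1 : ∀ z, iidLaw (Sym2 Z2) μ {t | BrNear t N z r} ≤
      ∑ i ∈ range n, ∑ v ∈ ball z r, f i v := fun z => by
    refine (measure_mono (t := ⋃ i ∈ range n, ⋃ v ∈ ball z r,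
      {t | IsBranch t (sq N) ((loop N).x i) v}) fun t ht => ?_).trans
        ((measure_biUnion_finset_le _ _).trans
          (sum_le_sum fun i _ => measure_biUnion_finset_le _ _))
    obtain ⟨y, v, hy, hv, hbr⟩ := ht
    obtain ⟨a, -, ha, rfl⟩ := exists_index 0 hy
    rw [zero_add] at ha
    exact Set.mem_iUnion₂.2 ⟨a, mem_range.2 ha, Set.mem_iUnion₂.2 ⟨v, mem_ball.2 hv, hbr⟩⟩
  calc ∑ z ∈ ball 0 (N / 8), iidLaw (Sym2 Z2) μ {t | BrNear t N z r}
      ≤ ∑ z ∈ ball 0 (N / 8), ∑ i ∈ range n, ∑ v ∈ ball z r, f i v := sum_le_sum fun z _ => h1 z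
    _ = ∑ i ∈ range n, ∑ z ∈ ball 0 (N / 8), ∑ v ∈ ball z r, f i v := sum_comm
    _ ≤ ∑ _i ∈ range n, ((2 * r + 1) * (2 * r + 1) : ℕ) * B := sum_le_sum fun i _ => by
        rw [sum_comm' (t' := ball 0 (N / 2))
          (s' := fun v => (ball 0 (N / 8)).filter fun z => v ∈ ball z r) fun z v => ?_]
        · refine le_trans ?_ (mul_le_mul_right (hB _ ((loop N).bdry i)) _)
          rw [mul_sum]
          refine sum_le_sum fun v _ => ?_
          rw [sum_const, nsmul_eq_mul]
          refine mul_le_mul_left ?_ _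
          rw [← card_ball v r]
          refine Nat.cast_le.2 (card_le_card fun z hz => ?_)
          rw [mem_ball, supDist_comm']
          exact mem_ball.1 (mem_filter.1 hz).2
        · simp only [mem_filter]
          refine ⟨fun h => ⟨⟨h.1, h.2⟩, ?_⟩, fun h => h.1⟩
          have := supDist_triangle 0 z v
          have := mem_ball.1 h.1
          have := mem_ball.1 h.2
          rw [mem_ball]; omega
    _ = _ := by rw [sum_const, card_range, nsmul_eq_mul, hn]; push_cast; ring

/-- **Part B.** Rare branch points and likely good boxes give the budget. -/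
theorem budgetBound (μ : Measure ℝ) [IsProbabilityMeasure μ] [NullSingletonClass μ]
    (hμ : ∀ᵐ s ∂μ, 0 ≤ s) (hA : BranchRare μ) (hG : GoodWhp μ) : BudgetBound μ := by
  classical
  obtain ⟨k, hk⟩ := hG
  intro d hd
  refine ⟨((256 * k * k + 1 : ℕ) : ℝ≥0∞), ENNReal.natCast_ne_top _, fun R S => ?_⟩
  set P := iidLaw (Sym2 Z2) μ
  set E := ∫⁻ t, segSum t 0 d R S ∂P
  set M := Fintype.card (Seg (0 : Z2) R) * S
  set Q := (2 * (R + 1) + 1) * (2 * (R + 1) + 1)
  set ε : ℝ := 1 / (2 * (2048 * (M * Q : ℕ) + 1)) with hε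
  have hε0 : 0 < ε := by positivity
  obtain ⟨C, hC⟩ := hA ε hε0
  have hη : (0 : ℝ≥0∞) < ((2 * (M + 1) : ℕ) : ℝ≥0∞)⁻¹ :=
    ENNReal.inv_pos.2 (ENNReal.natCast_ne_top _)
  obtain ⟨N, hgood, hN8, hNC⟩ := ((hk _ hη).and ((eventually_ge_atTop (8 * (R + 4))).and
    (eventually_ge_atTop ⌈C / ε⌉₊))).exists
  set I := ball (0 : Z2) (N / 8)
  set bad := toMeasurable P {t | ¬GoodBox t N ((k * N : ℕ) : ℝ) (k * N)}
  set br := fun z => toMeasurable P {t | BrNear t N z (R + 1)}
  have hpt : ∀ᵐ t ∂P, ∑ z ∈ I, segSum t z (z + d) R S ≤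
      ENNReal.ofReal (4 * ((k * N : ℕ) : ℝ) * ((k * N : ℕ) : ℝ)) +
        ((M : ℝ≥0∞) * ∑ z ∈ I, (br z).indicator 1 t + (M : ℝ≥0∞) * I.card * bad.indicator 1 t) := by
    filter_upwards [ae_pos μ hμ, ae_pathUnique μ] with t ht hu
    by_cases hb : t ∈ bad
    · refine le_trans (sum_le_sum fun z _ => segSum_le_card t z (z + d) R S) ?_
      rw [sum_const, nsmul_eq_mul, Set.indicator_of_mem hb]
      refine le_add_left (le_add_left (le_of_eq ?_))
      simp [M, mul_comm]
    · obtain ⟨o, A, hg⟩ : GoodBox t N ((k * N : ℕ) : ℝ) (k * N) :=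
        not_not.1 fun h => hb (subset_toMeasurable P _ h)
      have hnn : ∀ c ∈ A, 0 ≤ mixed (pass t N) c := fun c hc =>
        mixed_pass_nonneg (fun f => (ht f).le) (hg.sub hc)
      have hz : ∀ z ∈ I, segSum t z (z + d) R S ≤
          ENNReal.ofReal (edgeBudget t N A s(z, z + d)) + (M : ℝ≥0∞) * (br z).indicator 1 t := by
        intro z hz
        by_cases h : t ∈ br z
        · rw [Set.indicator_of_mem h, Pi.one_apply, mul_one]
          exact le_add_left (segSum_le_card t z (z + d) R S)
        · refine le_add_right (segSum_le_edgeBudget ht hu hg ?_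
            (fun hbr => h (subset_toMeasurable P _ hbr)) S)
          have := mem_ball.1 hz
          omega
      refine (sum_le_sum hz).trans ?_
      have hnn' : ∀ z ∈ I, 0 ≤ edgeBudget t N A s(z, z + d) := fun z _ =>
        sum_nonneg fun c hc => hnn c (mem_filter.1 hc).1
      rw [sum_add_distrib, ← mul_sum, Set.indicator_of_notMem hb, mul_zero, add_zero,
        ← ENNReal.ofReal_sum_of_nonneg hnn']
      refine add_le_add_left (ENNReal.ofReal_le_ofReal ?_) _
      have hinj : ∀ z ∈ I, ∀ z' ∈ I, s(z, z + d) = s(z', z' + d) → z = z' := by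
        intro z _ z' _ h
        rcases Sym2.eq_iff.1 h with ⟨h1, -⟩ | ⟨h1, h2⟩
        · exact h1
        · exfalso
          rw [h1] at h2
          have e1 := congrArg Prod.fst h2
          have e2 := congrArg Prod.snd h2
          simp only [Prod.fst_add, Prod.snd_add] at e1 e2
          simp only [lattice, Prod.fst_zero, Prod.snd_zero, zero_sub, abs_neg] at hd
          rcases abs_cases d.1 with c1 | c1 <;> rcases abs_cases d.2 with c2 | c2 <;> omega
      have h := sum_edgeBudget_le (fun f => (ht f).le) hu hg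
        (I.image fun z => s(z, z + d)) (fun e he v hv => ?_)
      · rw [sum_image hinj] at h
        exact h
      · obtain ⟨z, hz', rfl⟩ := mem_image.1 he
        have hz2 := mem_ball.1 hz'
        have hstep : supDist 0 (z + d) ≤ supDist 0 z + 1 := supDist_step (by
          simpa [lattice] using hd)
        rcases Sym2.mem_iff.1 hv with rfl | rfl <;> · unfold Mid; omega
  have hE : ∀ z : Z2, ∫⁻ t, segSum t z (z + d) R S ∂P = E := fun z => by
    simp only [P, E, ← lintegral_segSum_shift z μ 0 d R S, zero_add, add_comm d z]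
  have hmb : MeasurableSet bad := measurableSet_toMeasurable _ _
  have hmr : ∀ z, MeasurableSet (br z) := fun z => measurableSet_toMeasurable _ _
  have hmean : (I.card : ℝ≥0∞) * E ≤ ENNReal.ofReal (4 * ((k * N : ℕ) : ℝ) * ((k * N : ℕ) : ℝ)) +
      ((M : ℝ≥0∞) * ∑ z ∈ I, P {t | BrNear t N z (R + 1)} +
        (M : ℝ≥0∞) * I.card * P {t | ¬GoodBox t N ((k * N : ℕ) : ℝ) (k * N)}) := by
    have hms : Measurable fun t => ∑ z ∈ I, (br z).indicator (1 : (Sym2 Z2 → ℝ) → ℝ≥0∞) t :=
      Finset.measurable_sum _ fun z _ => measurable_one.indicator (hmr z)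
    calc (I.card : ℝ≥0∞) * E = ∫⁻ t, ∑ z ∈ I, segSum t z (z + d) R S ∂P := by
          rw [lintegral_finsetSum _ fun z _ => measurable_segSum _ _ _ _,
            sum_congr rfl fun z _ => hE z, sum_const, nsmul_eq_mul]
      _ ≤ _ := lintegral_mono_ae hpt
      _ = _ := by
          rw [lintegral_add_left measurable_const, lintegral_const, measure_univ, mul_one,
            lintegral_add_left (hms.const_mul _), lintegral_const_mul _ hms,
            lintegral_const_mul _ (measurable_one.indicator hmb),
            lintegral_finsetSum _ fun z _ => measurable_one.indicator (hmr z)]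
          simp only [lintegral_indicator_one, hmb, hmr, bad, br, measure_toMeasurable]
  have hIr : ((N : ℝ)) ^ 2 ≤ 64 * I.card := by
    have h : N ≤ 8 * (2 * (N / 8) + 1) := by omega
    have h' : N * N ≤ 64 * I.card := by
      rw [card_ball]
      calc N * N ≤ _ := Nat.mul_le_mul h h
        _ = _ := by ring
    rw [pow_two]
    exact_mod_cast h'
  have hsum : ∑ z ∈ I, P {t | BrNear t N z (R + 1)} ≤
      ((8 * N + 8) * Q : ℕ) * ENNReal.ofReal (ε * N + C) :=
    sum_brNear_le μ (by omega) fun y hy => hC N y hy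
  have hbadE : (M : ℝ≥0∞) * P {t | ¬GoodBox t N ((k * N : ℕ) : ℝ) (k * N)} ≤
      ENNReal.ofReal (1 / 2) := by
    refine (mul_le_mul_right hgood _).trans (le_trans (le_of_eq ?_)
      (ENNReal.ofReal_le_ofReal (show (M : ℝ) / (2 * (M + 1) : ℕ) ≤ 1 / 2 by
        rw [div_le_div_iff₀ (by positivity) (by norm_num)]; push_cast; linarith)))
    rw [ENNReal.ofReal_div_of_pos (by positivity), ENNReal.ofReal_natCast, ENNReal.ofReal_natCast,
      div_eq_mul_inv]
  refine (ENNReal.mul_le_mul_iff_right (a := (I.card : ℝ≥0∞)) (by simp [I, card_ball]) (by simp)).1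
    (hmean.trans ?_)
  have hCN : C ≤ ε * N := by
    have h : C / ε ≤ N := (Nat.le_ceil _).trans (by exact_mod_cast hNC)
    rw [div_le_iff₀ hε0] at h
    linarith
  have hMQ : ((M * Q : ℕ) : ℝ) * 2048 * ε ≤ 1 / 2 := by
    rw [hε, ← mul_div_assoc, div_le_div_iff₀ (by positivity) (by norm_num)]
    push_cast
    linarith
  calc _ ≤ ENNReal.ofReal (256 * (k * k : ℕ) * I.card) +
        (ENNReal.ofReal (1 / 2 * I.card) + ENNReal.ofReal (1 / 2 * I.card)) := by
        refine add_le_add (ENNReal.ofReal_le_ofReal ?_) (add_le_add ?_ ?_)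
        · push_cast
          nlinarith [mul_le_mul_of_nonneg_left hIr (show (0 : ℝ) ≤ 4 * (k * k) by positivity)]
        · refine (mul_le_mul_right hsum _).trans ?_
          rw [← mul_assoc, ← Nat.cast_mul, ← ENNReal.ofReal_natCast,
            ← ENNReal.ofReal_mul (Nat.cast_nonneg _)]
          refine ENNReal.ofReal_le_ofReal ?_
          have hN1 : (1 : ℝ) ≤ N := by exact_mod_cast (show 1 ≤ N by omega)
          have h1 : ((M * ((8 * N + 8) * Q) : ℕ) : ℝ) ≤ (M * Q : ℕ) * (16 * N) := by
            push_cast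
            nlinarith [show (0 : ℝ) ≤ (M : ℝ) * Q by positivity]
          calc ((M * ((8 * N + 8) * Q) : ℕ) : ℝ) * (ε * N + C)
              ≤ ((M * ((8 * N + 8) * Q) : ℕ) : ℝ) * (2 * (ε * N)) :=
                mul_le_mul_of_nonneg_left (by linarith) (Nat.cast_nonneg _)
            _ ≤ ((M * Q : ℕ) * (16 * N)) * (2 * (ε * N)) :=
                mul_le_mul_of_nonneg_right h1 (by positivity)
            _ = ((M * Q : ℕ) * 32 * ε) * (N : ℝ) ^ 2 := by ring
            _ ≤ ((M * Q : ℕ) * 32 * ε) * (64 * I.card) :=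
                mul_le_mul_of_nonneg_left hIr (by positivity)
            _ = ((M * Q : ℕ) * 2048 * ε) * I.card := by ring
            _ ≤ _ := mul_le_mul_of_nonneg_right hMQ (Nat.cast_nonneg _)
        · rw [mul_comm (M : ℝ≥0∞), mul_assoc, mul_comm (1 / 2 : ℝ),
            ENNReal.ofReal_mul (Nat.cast_nonneg _), ENNReal.ofReal_natCast]
          exact mul_le_mul_right hbadE _
    _ = _ := by
        rw [← ENNReal.ofReal_add (by positivity) (by positivity),
          ← ENNReal.ofReal_add (by positivity) (by positivity), ← Nat.cast_mul,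
          ← ENNReal.ofReal_natCast]
        congr 1
        push_cast
        ring

end

end Vale.P158.Chain
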