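import Vale.Agent.P158.Chain.Tail

/-!
# P158: no bigeodesic, from the budget

`no_bigeodesic_of_budget`: the budget for segment margins implies that almost surely there is no
bigeodesic.
-/

namespace Vale.P158.Chain

open MeasureTheory Finset Filter Topology
open scoped ENNReal

noncomputable section

variable (μ : Measure ℝ) [IsProbabilityMeasure μ] [NullSingletonClass μ]

omit [IsProbabilityMeasure μ] in
/-- Almost every weight lies strictly above some level of positive probability. -/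
lemma ae_exists_levels :
    ∀ᵐ s ∂μ, ∃ lo hi : ℚ, lo < hi ∧ (hi : ℝ) ≤ s ∧ μ (Set.Iic (lo : ℝ)) ≠ 0 := by
  set T := {s : ℝ | μ (Set.Iio s) = 0}
  have hT : μ T = 0 := by
    set U := ⋃ q : {q : ℚ // μ (Set.Iic (q : ℝ)) = 0}, Set.Iic (q.1 : ℝ)
    have hU : μ U = 0 := measure_iUnion_null fun q => q.2
    have hs : (T \ U).Subsingleton := by
      intro x hx y hy
      by_contra hne
      wlog hlt : x < y generalizing x y
      · exact this hy hx (Ne.symm hne) (lt_of_le_of_ne (not_lt.1 hlt) (Ne.symm hne))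
      obtain ⟨q, hxq, hqy⟩ := exists_rat_btwn hlt
      refine hx.2 (Set.mem_iUnion.2 ⟨⟨q, ?_⟩, hxq.le⟩)
      exact measure_mono_null (fun z hz => lt_of_le_of_lt hz hqy) hy.1
    refine measure_mono_null (fun z hz => ?_) (measure_union_null hU (hs.measure_zero μ))
    by_cases h : z ∈ U
    exacts [.inl h, .inr ⟨hz, h⟩]
  filter_upwards [measure_eq_zero_iff_ae_notMem.1 hT] with s hs
  have : ∃ lo : ℚ, (lo : ℝ) < s ∧ μ (Set.Iic (lo : ℝ)) ≠ 0 := by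
    by_contra! h
    refine hs (measure_mono_null (t := ⋃ q : {q : ℚ // (q : ℝ) < s}, Set.Iic (q.1 : ℝ))
      (fun z hz => ?_) (measure_iUnion_null fun q => h q.1 q.2))
    obtain ⟨q, hzq, hqs⟩ := exists_rat_btwn (Set.mem_Iio.1 hz)
    exact Set.mem_iUnion.2 ⟨⟨q, hqs⟩, hzq.le⟩
  obtain ⟨lo, hlo, hlo'⟩ := this
  obtain ⟨hi, h1, h2⟩ := exists_rat_btwn hlo
  exact ⟨lo, hi, by exact_mod_cast h1, h2.le, hlo'⟩

/-- **The budget implies that there is no bigeodesic.** -/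
theorem no_bigeodesic_of_budget (hμ : ∀ᵐ s ∂μ, 0 ≤ s) (hB : BudgetBound μ) :
    ∀ᵐ t ∂iidLaw (Sym2 Z2) μ, ¬∃ v, IsBigeodesic t v := by
  set P := iidLaw (Sym2 Z2) μ
  have hnn : ∀ᵐ t ∂P, ∀ f, 0 ≤ t f := (ae_pos μ hμ).mono fun t ht f => (ht f).le
  have hsegs : ∀ᵐ t ∂P, ∀ (d : Z2) (lo hi : ℚ), lattice.Adj 0 d → lo < hi →
      μ (Set.Iic (lo : ℝ)) ≠ 0 →
      t ∉ hiSet 0 d hi ∩ {t | ∀ R, ∃ q, t ∈ Ext 0 d R q} := by
    refine ae_all_iff.2 fun d => ae_all_iff.2 fun lo => ae_all_iff.2 fun hi => ?_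
    by_cases h : lattice.Adj 0 d ∧ lo < hi ∧ μ (Set.Iic (lo : ℝ)) ≠ 0
    · obtain ⟨C, hC, hle⟩ := hB d h.1
      filter_upwards [measure_eq_zero_iff_ae_notMem.1 (measure_all_ext_eq_zero μ hμ hC hle
        (lo := (lo : ℝ)) (hi := (hi : ℝ)) (by exact_mod_cast h.2.1) h.2.2)] with t ht _ _ _
      exact ht
    · exact Eventually.of_forall fun t h1 h2 h3 => absurd ⟨h1, h2, h3⟩ h
  have hlev : ∀ᵐ t ∂P, ∀ e, ∃ lo hi : ℚ, lo < hi ∧ (hi : ℝ) ≤ t e ∧
      μ (Set.Iic (lo : ℝ)) ≠ 0 := by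
    refine ae_all_iff.2 fun e => ?_
    have h := ae_exists_levels μ
    have hmap : MeasurePreserving (fun t : Sym2 Z2 → ℝ => t e) P μ :=
      ⟨measurable_pi_apply e, Measure.infinitePi_map_eval _ e⟩
    exact hmap.quasiMeasurePreserving.ae h
  have h0 : ∀ᵐ t ∂P, ¬∃ v, IsBigeodesic t v ∧ v 0 = 0 := by
    filter_upwards [hnn, hsegs, hlev] with t ht hseg hl
    rintro ⟨g, hg, h0⟩
    obtain ⟨lo, hi, h1, h2, h3⟩ := hl s((0 : Z2), g 1)
    have hadj : lattice.Adj 0 (g 1) := by simpa [h0] using hg.2.1 0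
    exact hseg (g 1) lo hi hadj h1 h3 ⟨⟨ht, h2⟩, fun R => ⟨_, ext_of_bigeodesic ht hg h0 rfl R⟩⟩
  have hall : ∀ᵐ t ∂P, ∀ z : Z2, ¬∃ v, IsBigeodesic (shiftCfg z t) v ∧ v 0 = 0 :=
    ae_all_iff.2 fun z => (measurePreserving_shiftCfg μ z).quasiMeasurePreserving.ae h0
  filter_upwards [hnn, hall] with t ht h
  rintro ⟨v, hv⟩
  refine h (v 0) ((exists_bigeodesic_shift_iff ht (v 0) 0).2 ⟨v, hv, ?_⟩)
  rw [zero_add]

end

end Vale.P158.Chain
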