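import Vale.Agent.P158.Peierls
import Vale.Agent.P158.TailShift

/-!
# P158: far edges are mostly heavy

When there are at most `N ^ L` segments of scale `L`, each with at least `L` far edges, and the
lower level is rare enough, with probability tending to one all of them have a quarter of their far
edges above it.
-/

open MeasureTheory ProbabilityTheory Filter Topology
open scoped ENNReal

namespace Vale.P158

noncomputable section

variable {ι : Type*} (μ : Measure ℝ) [IsProbabilityMeasure μ]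

open scoped Classical in
/-- It is unlikely that fewer than a quarter of given weights exceed a low level. -/
theorem measure_few_above_le {b : ℝ} {q : ℝ≥0∞} (hq : μ (Set.Iic b) ≤ q ^ 2) (hq1 : q ≤ 1)
    {Z : Finset ι} (hZ : 0 < Z.card) :
    iidLaw ι μ {t | ¬(0 < (Z.filter fun f => b < t f).card ∧
      Z.card ≤ 4 * (Z.filter fun f => b < t f).card)} ≤ (2 * q) ^ Z.card := by
  set P := Z.powerset.filter fun T => Z.card ≤ 2 * T.card
  calc _ ≤ iidLaw ι μ (⋃ T ∈ P, (T : Set ι).pi fun _ => Set.Iic b) := by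
        refine measure_mono fun t ht => Set.mem_iUnion₂.2 ⟨Z.filter fun f => ¬b < t f, ?_,
          fun i hi => not_lt.1 (Finset.mem_filter.1 (Finset.mem_coe.1 hi)).2⟩
        refine Finset.mem_filter.2 ⟨Finset.mem_powerset.2 (Finset.filter_subset _ _), ?_⟩
        have := Finset.card_filter_add_card_filter_not (s := Z) fun f => b < t f
        simp only [Set.mem_ofPred_eq, not_and] at ht
        by_cases h : 0 < (Z.filter fun f => b < t f).card
        · have := ht h
          omega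
        · omega
    _ ≤ ∑ T ∈ P, iidLaw ι μ ((T : Set ι).pi fun _ => Set.Iic b) := measure_biUnion_finset_le _ _
    _ ≤ ∑ _T ∈ P, q ^ Z.card := Finset.sum_le_sum fun T hT => by
        rw [iidLaw, Measure.infinitePi_pi _ fun _ _ => measurableSet_Iic, Finset.prod_const]
        refine (pow_le_pow_left' hq _).trans ?_
        rw [← pow_mul]
        exact pow_le_pow_right_of_le_one' hq1 (Finset.mem_filter.1 hT).2
    _ ≤ (2 * q) ^ Z.card := by
        rw [Finset.sum_const, nsmul_eq_mul, mul_pow]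
        refine mul_le_mul_left (le_trans (Nat.cast_le.2 (Finset.card_filter_le _ _)) ?_) _
        rw [Finset.card_powerset]
        simp

/-- The rarity needed of the lower level when there are at most `N ^ L` segments. -/
def RareLevel (μ : Measure ℝ) (N : ℕ) (b : ℝ) : Prop :=
  μ (Set.Iic b) ≤ ((4 * (N + 1 : ℕ) : ℝ≥0∞)⁻¹) ^ 2

/-- An atomless law has levels `a < b` with a possible lower side and `b` rare. -/
theorem exists_rareLevel [NullSingletonClass μ] (N : ℕ) :
    ∃ a b : ℝ, a < b ∧ μ (Set.Iic a) ≠ 0 ∧ RareLevel μ N b := by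
  obtain ⟨b, a, hab, hb, ha⟩ := exists_quantile μ (p := ((4 * (N + 1 : ℕ) : ℝ≥0∞)⁻¹) ^ 2)
    (pos_iff_ne_zero.2 (pow_ne_zero _ (ENNReal.inv_ne_zero.2 (by finiteness))))
  exact ⟨a, b, hab, ha.ne', hb⟩

/-- **Heaviness.** -/
theorem tendsto_not_heavy (S : TailShift.Data ι) (N : ℕ)
    (hS : ∀ᶠ L in atTop, ∃ K : Finset (S.Seg L), K.card ≤ N ^ L ∧
      ∀ k, (S.E L k).Nonempty → k ∈ K ∧ L ≤ (S.Z L k).card)
    {b : ℝ} (hb : RareLevel μ N b) (Hi : Set (ι → ℝ)) :
    Tendsto (fun L => iidLaw ι μ (Hi ∩ ⋃ k, (S.E L k \ TailShift.heavy S b L k))) atTop (𝓝 0) := by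
  classical
  set q := ((4 * (N + 1 : ℕ) : ℝ≥0∞))⁻¹ with hq
  have hN1 : (1 : ℝ≥0∞) ≤ (N + 1 : ℕ) := by exact_mod_cast Nat.le_add_left 1 N
  have hq1 : q ≤ 1 := by
    rw [hq, ENNReal.inv_le_one]
    calc (1 : ℝ≥0∞) ≤ 4 * 1 := by norm_num
      _ ≤ 4 * (N + 1 : ℕ) := mul_le_mul_right hN1 _
  have h2q : ((N + 1 : ℕ) : ℝ≥0∞) * (2 * q) = 2⁻¹ := by
    rw [hq, ENNReal.mul_inv (by simp) (by simp),
      show ((N + 1 : ℕ) : ℝ≥0∞) * (2 * ((4 : ℝ≥0∞)⁻¹ * ((N + 1 : ℕ) : ℝ≥0∞)⁻¹)) =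
        2 * (4 : ℝ≥0∞)⁻¹ * (((N + 1 : ℕ) : ℝ≥0∞) * ((N + 1 : ℕ) : ℝ≥0∞)⁻¹) by ring,
      ENNReal.mul_inv_cancel (by simp) (by simp), mul_one, show (4 : ℝ≥0∞) = 2 * 2 by norm_num,
      ENNReal.mul_inv (by simp) (by simp), ← mul_assoc, ENNReal.mul_inv_cancel (by simp) (by simp),
      one_mul]
  have h2q1 : 2 * q ≤ 1 := (le_mul_of_one_le_left' hN1).trans (h2q.trans_le (by norm_num))
  refine tendsto_of_tendsto_of_tendsto_of_le_of_le' tendsto_const_nhds
    (ENNReal.tendsto_pow_atTop_nhds_zero_of_lt_one (r := (2 : ℝ≥0∞)⁻¹) (by norm_num))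
    (Eventually.of_forall fun L => zero_le) ?_
  filter_upwards [hS, eventually_ge_atTop 1] with L hK hL
  obtain ⟨K, hcard, hK⟩ := hK
  set K' := K.filter fun k => (S.E L k).Nonempty with hK'
  calc iidLaw ι μ (Hi ∩ ⋃ k, (S.E L k \ TailShift.heavy S b L k))
      ≤ ∑ k ∈ K', iidLaw ι μ (TailShift.heavy S b L k)ᶜ := by
        refine (measure_mono fun t ht => ?_).trans (measure_biUnion_finset_le _ _)
        obtain ⟨k, hk, hh⟩ := Set.mem_iUnion.1 ht.2
        exact Set.mem_iUnion₂.2 ⟨k, Finset.mem_filter.2 ⟨(hK k ⟨t, hk⟩).1, t, hk⟩, hh⟩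
    _ ≤ ∑ _k ∈ K', (2 * q) ^ L := Finset.sum_le_sum fun k hk => by
        have hZ := (hK k (Finset.mem_filter.1 hk).2).2
        refine le_trans ?_ (pow_le_pow_right_of_le_one' h2q1 hZ)
        refine le_trans (le_of_eq ?_) (measure_few_above_le μ hb hq1 (hL.trans hZ))
        rfl
    _ ≤ (K.card : ℝ≥0∞) * (2 * q) ^ L := by
        rw [Finset.sum_const, nsmul_eq_mul]
        exact mul_le_mul_left (Nat.cast_le.2 (Finset.card_filter_le _ _)) _
    _ ≤ ((N + 1 : ℕ) : ℝ≥0∞) ^ L * (2 * q) ^ L := by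
        refine mul_le_mul_left ?_ _
        exact_mod_cast hcard.trans (Nat.pow_le_pow_left (Nat.le_succ N) L)
    _ = (2⁻¹ : ℝ≥0∞) ^ L := by rw [← mul_pow, h2q]

end

end Vale.P158
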