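import Vale.Agent.P158.Chain.Defs

/-!
# P158, module BB: nested pairs without branch points follow the same segment

Two geodesics `x → y` and `a → c` of nested boundary pairs with a common vertex recombine into
geodesics by the Monge inequality. If that vertex is not a branch vertex of `x` or `y`, they leave
and reach it through the same edges.
-/

namespace Vale.P158.Chain

open SimpleGraph
open Vale.Agent.P158.Crossing (Rect)

noncomputable section

variable {t : Sym2 Z2 → ℝ}

/-- The walk steps from `v` to `u`. -/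
def Step {x y : Z2} (p : lattice.Walk x y) (v u : Z2) : Prop :=
  ∃ i, i < p.length ∧ p.getVert i = v ∧ p.getVert (i + 1) = u

lemma Step.reverse {x y v u : Z2} {p : lattice.Walk x y} (h : Step p v u) :
    Step p.reverse u v := by
  obtain ⟨i, hi, h1, h2⟩ := h
  refine ⟨p.length - (i + 1), by rw [Walk.length_reverse]; omega, ?_, ?_⟩
  · rw [Walk.getVert_reverse, show p.length - (p.length - (i + 1)) = i + 1 by omega, h2]
  · rw [Walk.getVert_reverse,
      show p.length - (p.length - (i + 1) + 1) = i by omega, h1]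

lemma Step.mem_left {x y v u : Z2} {p : lattice.Walk x y} (h : Step p v u) : v ∈ p.support := by
  obtain ⟨i, _, h1, _⟩ := h
  exact h1 ▸ p.getVert_mem_support i

lemma Step.mem_right {x y v u : Z2} {p : lattice.Walk x y} (h : Step p v u) : u ∈ p.support := by
  obtain ⟨i, _, _, h2⟩ := h
  exact h2 ▸ p.getVert_mem_support (i + 1)

lemma index_takeUntil {x y v : Z2} {p : lattice.Walk x y} (hp : p.IsPath) (hv : v ∈ p.support)
    {i : ℕ} (hi : i ≤ p.length) (h : p.getVert i = v) : (p.takeUntil v hv).length = i :=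
  hp.getVert_injOn (p.length_takeUntil_le_length hv) hi
    ((p.getVert_length_takeUntil hv).trans h.symm)

lemma getVert_dropUntil' {x y v : Z2} (p : lattice.Walk x y) (hv : v ∈ p.support) (k : ℕ) :
    (p.dropUntil v hv).getVert k = p.getVert ((p.takeUntil v hv).length + k) := by
  have h : ((p.takeUntil v hv).append (p.dropUntil v hv)).getVert
      ((p.takeUntil v hv).length + k) = (p.dropUntil v hv).getVert k := by
    rw [Walk.getVert_append, if_neg (by omega), Nat.add_sub_cancel_left]
  rw [p.take_spec hv] at h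
  exact h.symm

lemma length_dropUntil' {x y v : Z2} (p : lattice.Walk x y) (hv : v ∈ p.support) :
    (p.takeUntil v hv).length + (p.dropUntil v hv).length = p.length := by
  have h := congrArg Walk.length (p.take_spec hv)
  rwa [Walk.length_append] at h

lemma wlen_pos (ht : ∀ e, 0 < t e) {a b : Z2} (p : lattice.Walk a b) (h : a ≠ b) :
    0 < wlen t p := by
  cases p with
  | nil => exact absurd rfl h
  | @cons _ c _ hadj q =>
    rw [wlen_cons]
    have := ht s(a, c)
    have := wlen_nonneg (fun e => (ht e).le) q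
    linarith

variable {U : Set Z2}

/-- Two geodesics with a common vertex recombine into geodesics when the Monge inequality for
their four ends is an equality. -/
theorem merge_geo (ht : ∀ e, 0 < t e) {x y a c v : Z2} {γ : lattice.Walk x y}
    {δ : lattice.Walk a c} (hγ : IsGeoU t U γ) (hδ : IsGeoU t U δ) (hv : v ∈ γ.support)
    (hv' : v ∈ δ.support)
    (hM : passU t U x y + passU t U a c ≤ passU t U x c + passU t U a y) :
    IsGeoU t U ((γ.takeUntil v hv).append (δ.dropUntil v hv')) := by
  have ht0 : ∀ e, 0 ≤ t e := fun e => (ht e).le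
  set γ1 := γ.takeUntil v hv with hγ1
  set γ2 := γ.dropUntil v hv with hγ2
  set δ1 := δ.takeUntil v hv' with hδ1
  set δ2 := δ.dropUntil v hv' with hδ2
  have g1 : IsGeoU t U γ1 := hγ.left ht0 hv
  have g2 : IsGeoU t U γ2 := hγ.right ht0 hv
  have d1 : IsGeoU t U δ1 := hδ.left ht0 hv'
  have d2 : IsGeoU t U δ2 := hδ.right ht0 hv'
  have inU : ∀ {r s w : Z2} {p : lattice.Walk r s} {q : lattice.Walk s w},
      IsGeoU t U p → IsGeoU t U q → ∀ u ∈ (p.append q).support, u ∈ U := by
    intro r s w p q hp hq u hu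
    rcases (Walk.mem_support_append_iff p q).1 hu with h | h
    exacts [hp.mem h, hq.mem h]
  have e1 : passU t U x y = wlen t γ1 + wlen t γ2 := by
    rw [← hγ.wlen_eq_passU ht0, ← wlen_append, hγ1, hγ2, γ.take_spec hv]
  have e2 : passU t U a c = wlen t δ1 + wlen t δ2 := by
    rw [← hδ.wlen_eq_passU ht0, ← wlen_append, hδ1, hδ2, δ.take_spec hv']
  have l1 := passU_le ht0 (γ1.append δ2) (inU g1 d2)
  have l2 := passU_le ht0 (δ1.append γ2) (inU d1 g2)
  rw [wlen_append] at l1 l2
  have hkey : wlen t γ1 + wlen t δ2 = passU t U x c := by linarith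
  have hdisj : ∀ u, u ∈ γ1.support → u ∈ δ2.support → u = v := by
    intro u hu hu'
    by_contra hne
    have hb := passU_le ht0 ((γ1.takeUntil u hu).append (δ2.dropUntil u hu'))
      (inU (g1.left ht0 hu) (d2.right ht0 hu'))
    rw [wlen_append] at hb
    have s1 : wlen t γ1 = wlen t (γ1.takeUntil u hu) + wlen t (γ1.dropUntil u hu) := by
      rw [← wlen_append, γ1.take_spec hu]
    have s2 : wlen t δ2 = wlen t (δ2.takeUntil u hu') + wlen t (δ2.dropUntil u hu') := by
      rw [← wlen_append, δ2.take_spec hu']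
    have := wlen_pos ht (γ1.dropUntil u hu) hne
    have := wlen_nonneg ht0 (δ2.takeUntil u hu')
    linarith
  refine ⟨?_, inU g1 d2, fun q _ hqU => ?_⟩
  · rw [Walk.isPath_def, Walk.support_append]
    have hnd := d2.1.support_nodup
    rw [← Walk.cons_tail_support, List.nodup_cons] at hnd
    refine List.nodup_append.2 ⟨g1.1.support_nodup, hnd.2, ?_⟩
    intro u hu w hw huw
    subst huw
    exact hnd.1 (hdisj u hu (List.mem_of_mem_tail hw) ▸ hw)
  · rw [wlen_append, hkey]
    exact passU_le ht0 q hqU

/-- Without a branch point of the root `x` at `v`, both geodesics leave `v` by the same edge. -/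
theorem step_forward (ht : ∀ e, 0 < t e) (hu : PathUnique t) (B : Rect) {x y a c v u : Z2}
    (hy : B.Bdry y) (hc : B.Bdry c) {γ : lattice.Walk x y} {δ : lattice.Walk a c}
    (hγ : IsGeoU t {w | B.Mem w} γ) (hδ : IsGeoU t {w | B.Mem w} δ)
    (hM : passU t {w | B.Mem w} x y + passU t {w | B.Mem w} a c ≤
      passU t {w | B.Mem w} x c + passU t {w | B.Mem w} a y)
    (hvi : ¬B.Bdry v) (hnb : ¬IsBranch t B x v) (hs : Step γ v u) (hvδ : v ∈ δ.support) :
    Step δ v u := by
  classical
  have ht0 : ∀ e, 0 ≤ t e := fun e => (ht e).le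
  obtain ⟨i, hi, hiv, hiu⟩ := hs
  have hv : v ∈ γ.support := hiv ▸ γ.getVert_mem_support i
  have hti : (γ.takeUntil v hv).length = i := index_takeUntil hγ.1 hv hi.le hiv
  set G := (γ.takeUntil v hv).append (δ.dropUntil v hvδ) with hGdef
  have hG : IsGeoU t {w | B.Mem w} G := merge_geo ht hγ hδ hv hvδ hM
  have hvG : v ∈ G.support := by
    rw [hGdef, Walk.mem_support_append_iff]
    exact Or.inl (Walk.end_mem_support _)
  -- a later common vertex
  obtain ⟨w, hwγ, hwG, hwv⟩ : ∃ w ∈ (γ.dropUntil v hv).support,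
      w ∈ (G.dropUntil v hvG).support ∧ w ≠ v := by
    by_contra! hcon
    exact hnb ⟨y, c, γ, G, hy, hc, hγ, hG, hvi, hv, hvG, hcon⟩
  have hwδ : w ∈ (δ.dropUntil v hvδ).support := by
    have h' := G.support_dropUntil_subset_support hvG hwG
    rw [hGdef, Walk.mem_support_append_iff] at h'
    refine h'.resolve_left fun h => hwv ?_
    obtain ⟨j, hjw, hj⟩ := Walk.mem_support_iff_exists_getVert.1 h
    rw [Walk.getVert_takeUntil hv hj] at hjw
    obtain ⟨k, hkw, hk⟩ := Walk.mem_support_iff_exists_getVert.1 hwγ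
    rw [getVert_dropUntil', hti] at hkw
    have := length_dropUntil' γ hv
    have hjk : j = i + k :=
      hγ.1.getVert_injOn (show j ≤ γ.length by omega) (show i + k ≤ γ.length by omega)
        (hjw.trans hkw.symm)
    rw [← hjw, show j = i by omega, hiv]
  have heq := IsGeoU.unique hu ((hγ.right ht0 hv).left ht0 hwγ)
    ((hδ.right ht0 hvδ).left ht0 hwδ)
  have hpos : 1 ≤ ((γ.dropUntil v hv).takeUntil w hwγ).length :=
    Nat.one_le_iff_ne_zero.2 fun h => hwv (Walk.eq_of_length_eq_zero h).symm
  have hpos' : 1 ≤ ((δ.dropUntil v hvδ).takeUntil w hwδ).length := heq ▸ hpos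
  refine ⟨(δ.takeUntil v hvδ).length, ?_, δ.getVert_length_takeUntil hvδ, ?_⟩
  · have := length_dropUntil' δ hvδ
    have := (δ.dropUntil v hvδ).length_takeUntil_le_length hwδ
    omega
  · rw [← getVert_dropUntil', ← Walk.getVert_takeUntil hwδ hpos', ← heq,
      Walk.getVert_takeUntil hwγ hpos, getVert_dropUntil', hti, hiu]

/-- Without a branch point of the root `y` at `v`, both geodesics reach `v` by the same edge. -/
theorem step_backward (ht : ∀ e, 0 < t e) (hu : PathUnique t) (B : Rect) {x y a c v u : Z2}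
    (hx : B.Bdry x) (ha : B.Bdry a) {γ : lattice.Walk x y} {δ : lattice.Walk a c}
    (hγ : IsGeoU t {w | B.Mem w} γ) (hδ : IsGeoU t {w | B.Mem w} δ)
    (hM : passU t {w | B.Mem w} x y + passU t {w | B.Mem w} a c ≤
      passU t {w | B.Mem w} x c + passU t {w | B.Mem w} a y)
    (hvi : ¬B.Bdry v) (hnb : ¬IsBranch t B y v) (hs : Step γ u v) (hvδ : v ∈ δ.support) :
    Step δ u v := by
  have ht0 : ∀ e, 0 ≤ t e := fun e => (ht e).le
  have h : Step δ.reverse v u :=
    step_forward ht hu B hx ha hγ.reverse hδ.reverse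
      (by
        rw [passU_comm ht0 _ y x, passU_comm ht0 _ c a, passU_comm ht0 _ y a, passU_comm ht0 _ c x]
        linarith)
      hvi hnb hs.reverse (by rwa [Walk.support_reverse, List.mem_reverse])
  simpa using h.reverse

/-- A nested pair meeting a stretch of the outer geodesic without branch points carries the whole
stretch, in the same direction. -/
theorem carries_of_meets (ht : ∀ e, 0 < t e) (hu : PathUnique t) (B : Rect) {x y a c : Z2}
    (hx : B.Bdry x) (hy : B.Bdry y) (ha : B.Bdry a) (hc : B.Bdry c)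
    {γ : lattice.Walk x y} {δ : lattice.Walk a c}
    (hγ : IsGeoU t {w | B.Mem w} γ) (hδ : IsGeoU t {w | B.Mem w} δ)
    (hM : passU t {w | B.Mem w} x y + passU t {w | B.Mem w} a c ≤
      passU t {w | B.Mem w} x c + passU t {w | B.Mem w} a y)
    {i n : ℕ} (hn : i + n ≤ γ.length)
    (hint : ∀ k ≤ n, ¬B.Bdry (γ.getVert (i + k)) ∧ ¬IsBranch t B x (γ.getVert (i + k)) ∧
      ¬IsBranch t B y (γ.getVert (i + k)))
    (hmeet : ∃ k ≤ n, γ.getVert (i + k) ∈ δ.support) :
    ∃ j, j + n ≤ δ.length ∧ ∀ k ≤ n, δ.getVert (j + k) = γ.getVert (i + k) := by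
  obtain ⟨k0, hk0, hk0δ⟩ := hmeet
  have hgam : ∀ k < n, Step γ (γ.getVert (i + k)) (γ.getVert (i + (k + 1))) :=
    fun k hk => ⟨i + k, by omega, rfl, rfl⟩
  have fwd : ∀ d, k0 + d ≤ n → γ.getVert (i + (k0 + d)) ∈ δ.support := by
    intro d
    induction d with
    | zero => intro _; exact hk0δ
    | succ d ih =>
      intro hd
      obtain ⟨h1, h2, -⟩ := hint (k0 + d) (by omega)
      exact (step_forward ht hu B hy hc hγ hδ hM h1 h2 (hgam (k0 + d) (by omega))
        (ih (by omega))).mem_right
  have bwd : ∀ d ≤ k0, γ.getVert (i + (k0 - d)) ∈ δ.support := by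
    intro d
    induction d with
    | zero => intro _; exact hk0δ
    | succ d ih =>
      intro hd
      have hst := hgam (k0 - (d + 1)) (by omega)
      rw [show k0 - (d + 1) + 1 = k0 - d by omega] at hst
      obtain ⟨h1, -, h3⟩ := hint (k0 - d) (by omega)
      exact (step_backward ht hu B hx ha hγ hδ hM h1 h3 hst (ih (by omega))).mem_left
  have hmem : ∀ k ≤ n, γ.getVert (i + k) ∈ δ.support := by
    intro k hk
    rcases le_or_gt k0 k with hle | hlt
    · have := fwd (k - k0) (by omega)
      rwa [show k0 + (k - k0) = k by omega] at this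
    · have := bwd (k0 - k) (by omega)
      rwa [show k0 - (k0 - k) = k by omega] at this
  obtain ⟨j, hj0, hj⟩ := Walk.mem_support_iff_exists_getVert.1 (hmem 0 (Nat.zero_le n))
  have hall : ∀ k ≤ n, j + k ≤ δ.length ∧ δ.getVert (j + k) = γ.getVert (i + k) := by
    intro k
    induction k with
    | zero => exact fun _ => ⟨hj, hj0⟩
    | succ k ih =>
      intro hk
      obtain ⟨h2, h3⟩ := ih (by omega)
      obtain ⟨g1, g2, -⟩ := hint k (by omega)
      obtain ⟨m, hm, hm0, hm1⟩ :=
        step_forward ht hu B hy hc hγ hδ hM g1 g2 (hgam k (by omega)) (hmem k (by omega))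
      have : m = j + k := hδ.1.getVert_injOn hm.le h2 (hm0.trans h3.symm)
      subst this
      exact ⟨hm, hm1⟩
  exact ⟨j, (hall n le_rfl).1, fun k hk => (hall k hk).2⟩

end

end Vale.P158.Chain
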