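import Vale.Agent.P158.Chain.SegBox
import Vale.Agent.P158.Chain.BoxBudget

/-!
# P158: the margins through an edge of a good box

The capped margins of the present segments through an edge near the middle of a good box without
branch points nearby are at most the budget of the edge.
-/

namespace Vale.P158.Chain

open MeasureTheory Finset
open scoped ENNReal

noncomputable section

lemma winList_getElem? {u : Z2} {R : ℕ} (q : Seg u R) {i : ℕ} (hi : i < 2 * R + 2) :
    (winList q)[i]? = some (toFun q (-(R : ℤ) + i)) := by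
  simp [winList, hi]

lemma winList_injective (u : Z2) (R : ℕ) : Function.Injective (winList (u := u) (R := R)) := by
  intro q q' h
  rw [← ofFun_toFun q, ← ofFun_toFun q']
  funext i
  have hi := Finset.mem_Icc.1 i.2
  have h1 := congrArg (fun l => l[(i.1 + (R : ℤ)).toNat]?) h
  simp only [winList_getElem? q (show (i.1 + (R : ℤ)).toNat < 2 * R + 2 by omega),
    winList_getElem? q' (show (i.1 + (R : ℤ)).toNat < 2 * R + 2 by omega), Option.some.injEq,
    show -(R : ℤ) + ((i.1 + (R : ℤ)).toNat : ℤ) = i.1 by omega] at h1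
  simp [ofFun, h1]

/-- **The budget of an edge.** -/
theorem segSum_le_edgeBudget {t : Sym2 Z2 → ℝ} (ht : ∀ e, 0 < t e) (hu : PathUnique t) {N : ℕ}
    {K : ℝ} {L o : ℕ} {A : Finset (ℕ × ℕ)} (hgood : IsGood t N K L o A) {u v : Z2} {R : ℕ}
    (hmid : supDist 0 u + R + 2 ≤ N / 2) (hbr : ¬BrNear t N u (R + 1)) (S : ℕ) :
    segSum t u v R S ≤ ENNReal.ofReal (edgeBudget t N A s(u, v)) := by
  classical
  obtain ⟨x, y, hxy, hle⟩ := segSum_le (u := u) (v := v) (fun f => (ht f).le)
    (show supDist 0 u + R + 2 ≤ N by omega) S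
  set P := Finset.univ.filter fun q : Seg u R => t ∈ Ext u v R q
  have : Nonempty (Seg u R) := ⟨ofFun u R fun _ => u⟩
  set inv := Function.invFun (winList (u := u) (R := R))
  have hinv : ∀ q, inv (winList q) = q := Function.leftInverse_invFun (winList_injective u R)
  have hwin : ∀ q ∈ P, BoxWin t N R u v (winList q) (x q) (y q) := fun q hq => by
    have hq := (Finset.mem_filter.1 hq).2
    obtain ⟨hx, hy, hw⟩ := hxy q hq
    have h0 := (geoWin_of_ext hq).1
    refine ⟨by simp [winList], ?_, ?_, hx, hy, hw⟩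
    · rw [winList_getElem? q (by omega), neg_add_cancel, h0.zero]
    · rw [winList_getElem? q (by omega),
        show -(R : ℤ) + ((R + 1 : ℕ) : ℤ) = 1 by push_cast; omega, h0.one]
  have hB : ∀ q ∈ P, 0 ≤ boxMargin t N S (edgeSet R (toFun q)) (x q) (y q) := fun q hq => by
    obtain ⟨-, -, w, hw, -⟩ := hxy q (Finset.mem_filter.1 hq).2
    refine sub_nonneg.2 (le_passU hw.joined fun π hπ => (passU_le (fun f => (ht f).le) π hπ).trans ?_)
    exact List.sum_le_sum fun f _ => by simp only [raise]; split_ifs <;> simp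
  refine hle.trans ?_
  rw [← ENNReal.ofReal_sum_of_nonneg hB]
  refine ENNReal.ofReal_le_ofReal ?_
  have hmain := segs_budget (z' := v) ht hu hgood (Nat.cast_nonneg S) hmid hbr (P.image winList)
    (fun l => edgeSet R (toFun (inv l))) (fun l => x (inv l)) (fun l => y (inv l)) ?_ ?_
  · refine le_trans (le_of_eq ?_) hmain
    rw [Finset.sum_image fun a _ b _ h => winList_injective u R h]
    exact Finset.sum_congr rfl fun q _ => by rw [hinv]
  · intro l hl
    obtain ⟨q, hq, rfl⟩ := Finset.mem_image.1 hl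
    rw [hinv]
    exact hwin q hq
  · intro l hl f hf
    obtain ⟨q, hq, rfl⟩ := Finset.mem_image.1 hl
    rw [hinv] at hf
    obtain ⟨k, hk, rfl⟩ := Finset.mem_image.1 hf
    rw [Finset.mem_Ico] at hk
    refine ⟨toFun q k, Sym2.mem_mk_left _ _, List.mem_iff_getElem?.2 ⟨(k + (R : ℤ)).toNat, ?_⟩⟩
    rw [winList_getElem? q (by omega), show -(R : ℤ) + ((k + (R : ℤ)).toNat : ℤ) = k by omega]

end

end Vale.P158.Chain
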