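import Vale.Agent.P158.Chain.Seg
import Vale.Agent.P158.Chain.Heavy

/-!
# P158, PROOF70 part C: no present segment at every scale

The budget gives a bounded mean number of segments on `hi ≤ t e`; the tail shift then shows that
almost surely some scale has no present segment.
-/

namespace Vale.P158.Chain

open MeasureTheory Finset Filter Topology
open scoped ENNReal

noncomputable section

variable {u v : Z2}

/-- The radius of the removed ball at scale `L`. -/
def rad (L : ℕ) : ℕ := L.sqrt / 4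

/-- The edges of a window leaving the small ball about `u`. -/
def farEdges (u : Z2) (L : ℕ) (k : Seg u L) : Finset (Sym2 Z2) :=
  ((Ico (-(L : ℤ)) (L + 1)).filter fun i => toFun k i ∉ ball u (rad L)).image
    fun i => s(toFun k i, toFun k (i + 1))

lemma farEdges_subset (L : ℕ) (k : Seg u L) : farEdges u L k ⊆ edgeSet L (toFun k) :=
  image_subset_image (filter_subset _ _)

lemma notMem_farEdges {L : ℕ} {k : Seg u L} (hk : Win u v L (toFun k)) :
    s(u, v) ∉ farEdges u L k := by
  intro h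
  obtain ⟨i, hi, he⟩ := mem_image.1 h
  obtain ⟨hi, hout⟩ := mem_filter.1 hi
  have h0 : i = 0 := hk.edge_inj hi (mem_Ico.2 ⟨by omega, by omega⟩) (by
    rw [he, zero_add, hk.zero, hk.one])
  rw [h0, hk.zero] at hout
  exact hout (self_mem_ball u _)

lemma le_card_farEdges {L : ℕ} {k : Seg u L} (hk : Win u v L (toFun k)) :
    L ≤ (farEdges u L k).card := by
  rw [farEdges, card_image_of_injOn fun i hi j hj he =>
    hk.edge_inj (mem_filter.1 (mem_coe.1 hi)).1 (mem_filter.1 (mem_coe.1 hj)).1 he]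
  have hsplit := card_filter_add_card_filter_not (s := Ico (-(L : ℤ)) (L + 1))
    fun i => toFun k i ∈ ball u (rad L)
  have hin : ((Ico (-(L : ℤ)) (L + 1)).filter fun i => toFun k i ∈ ball u (rad L)).card ≤
      (2 * rad L + 1) * (2 * rad L + 1) := by
    refine (card_le_card_of_injOn (t := ball u (rad L)) (toFun k)
      (fun i hi => (mem_filter.1 hi).2) (hk.inj.mono fun i hi => ?_)).trans (le_of_eq ?_)
    · have := mem_Ico.1 (mem_filter.1 (mem_coe.1 hi)).1
      exact ⟨this.1, by omega⟩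
    · rw [ball, card_product, Int.card_Icc, Int.card_Icc]
      congr 1 <;> omega
  have hr : (2 * rad L + 1) * (2 * rad L + 1) ≤ L + 1 := by
    rcases Nat.eq_zero_or_pos L.sqrt with h | h
    · simp [rad, h]
    · have : 2 * rad L + 1 ≤ L.sqrt := by unfold rad; omega
      exact (Nat.mul_le_mul this this).trans (L.sqrt_le.trans (Nat.le_succ L))
  have hn : (Ico (-(L : ℤ)) (L + 1)).card = 2 * L + 1 := by rw [Int.card_Ico]; omega
  omega

open scoped Classical in
/-- There are at most `16 ^ L` windows of scale `L`. -/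
lemma card_win_le (L : ℕ) :
    (univ.filter fun q : Seg u L => Win u v L (toFun q)).card ≤ 16 ^ L := by
  induction L with
  | zero =>
    refine card_le_one.2 fun p hp q hq => ?_
    have hp := (mem_filter.1 hp).2
    have hq := (mem_filter.1 hq).2
    rw [← ofFun_toFun p, ← ofFun_toFun q]
    funext i
    obtain ⟨h1, h2⟩ := mem_Icc.1 i.2
    have hpq : toFun p i.1 = toFun q i.1 := by
      rcases (by omega : i.1 = 0 ∨ i.1 = 1) with e | e <;> rw [e]
      exacts [hp.zero.trans hq.zero.symm, hp.one.trans hq.one.symm]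
    simp [ofFun, hpq]
  | succ L ih =>
    refine le_trans (card_le_mul_card_image (f := res L (L + 1)) _ 16 fun w hw => ?_) ?_
    · obtain ⟨p, hp, rfl⟩ := mem_image.1 hw
      have hp := (mem_filter.1 hp).2
      have hval : ∀ q : Seg u (L + 1), Win u v (L + 1) (toFun q) → res L (L + 1) q = res L (L + 1) p →
          ∀ i : ℤ, -(L : ℤ) ≤ i → i ≤ L + 1 → toFun q i = toFun p i := fun q hq he i a b => by
        rw [← toFun_res (Nat.le_succ L) hq a b, he, toFun_res (Nat.le_succ L) hp a b]
      refine le_trans (card_le_card_of_injOn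
        (t := nbrs (toFun p (-(L : ℤ))) ×ˢ nbrs (toFun p ((L : ℤ) + 1)))
        (fun q => (toFun q (-(L : ℤ) - 1), toFun q ((L : ℤ) + 2))) (fun q hq => ?_)
        (fun q hq q' hq' he => ?_)) ?_
      · obtain ⟨hq, he⟩ := mem_filter.1 hq
        have hq := (mem_filter.1 hq).2
        refine mem_product.2 ⟨mem_nbrs ?_, mem_nbrs ?_⟩
        · have := (hq.adj (-(L : ℤ) - 1) (by push_cast; omega) (by push_cast; omega)).symm
          rwa [sub_add_cancel, hval q hq he _ le_rfl (by omega)] at this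
        · have := hq.adj ((L : ℤ) + 1) (by push_cast; omega) (by push_cast; omega)
          rwa [add_assoc, show (1 : ℤ) + 1 = 2 by norm_num, hval q hq he _ (by omega) le_rfl] at this
      · obtain ⟨hq, heq⟩ := mem_filter.1 hq
        obtain ⟨hq', heq'⟩ := mem_filter.1 hq'
        have hq := (mem_filter.1 hq).2
        have hq' := (mem_filter.1 hq').2
        simp only [Prod.mk.injEq] at he
        rw [← ofFun_toFun q, ← ofFun_toFun q']
        funext i
        obtain ⟨h1, h2⟩ := mem_Icc.1 i.2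
        push_cast at h1 h2
        have hqq : toFun q i.1 = toFun q' i.1 := by
          rcases (by omega : i.1 = -(L : ℤ) - 1 ∨ i.1 = (L : ℤ) + 2 ∨
            (-(L : ℤ) ≤ i.1 ∧ i.1 ≤ L + 1)) with e | e | ⟨a, b⟩
          · rw [e]; exact he.1
          · rw [e]; exact he.2
          · rw [hval q hq heq _ a b, hval q' hq' heq' _ a b]
        simp [ofFun, hqq]
      · rw [card_product]
        exact (Nat.mul_le_mul (card_nbrs _) (card_nbrs _)).trans (by norm_num)
    · rw [pow_succ, mul_comm]
      refine Nat.mul_le_mul_right _ (le_trans (card_le_card fun w hw => ?_) ih)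
      obtain ⟨p, hp, rfl⟩ := mem_image.1 hw
      have hp := (mem_filter.1 hp).2
      exact mem_filter.2 ⟨mem_univ _, (hp.mono (Nat.le_succ L)).congr
        fun k a b => (toFun_res (Nat.le_succ L) hp a b).symm⟩

lemma far_farEdges (u : Z2) (F : Finset (Sym2 Z2)) :
    ∀ᶠ L in atTop, ∀ k : Seg u L, Disjoint (farEdges u L k) F := by
  classical
  set m := (F.biUnion fun f => f.toFinset).sup (supDist u)
  filter_upwards [eventually_ge_atTop (4 * m * (4 * m))] with L hL k
  have hr : m ≤ rad L := by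
    have := Nat.le_sqrt.2 hL
    unfold rad
    omega
  refine disjoint_left.2 fun f hf hfF => ?_
  obtain ⟨i, hi, rfl⟩ := mem_image.1 hf
  refine (mem_filter.1 hi).2 (mem_ball.2 (le_trans ?_ hr))
  exact le_sup (f := supDist u) (mem_biUnion.2 ⟨_, hfF, by simp⟩)

/-- The segments through `(u, v)` as data for the tail shift. -/
def tailData (u v : Z2) : TailShift.Data (Sym2 Z2) where
  Seg := Seg u
  E := Ext u v
  D := segMargin u v
  res := fun M R q => res M R q
  Z := farEdges u
  meas_E := measurableSet_ext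
  meas_D := measurable_segMargin
  res_self := res_self
  res_trans := fun _ _ _ h1 h2 q => res_trans h1 h2 q
  down := fun _ _ h _ _ hq => ext_down h hq
  up := fun _ _ h _ _ hp => ext_up h hp
  far := far_farEdges u

lemma num_tailData (u v : Z2) (R : ℕ) (t : Sym2 Z2 → ℝ) :
    (TailShift.num (tailData u v) R t : ℝ≥0∞) = extCount t u v R :=
  TailShift.num_eq_sum _ R t

variable (μ : Measure ℝ) [IsProbabilityMeasure μ]

omit [IsProbabilityMeasure μ] in
lemma measure_Icc_zero (hμ : ∀ᵐ s ∂μ, 0 ≤ s) (a : ℝ) : μ (Set.Icc 0 a) = μ (Set.Iic a) := by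
  refine measure_congr ?_
  filter_upwards [hμ] with s hs
  exact propext ⟨fun h => h.2, fun h => ⟨hs, h⟩⟩

/-- The configurations with nonnegative weights and `hi ≤ t s(u, v)`. -/
def hiSet (u v : Z2) (hi : ℝ) : Set (Sym2 Z2 → ℝ) := {t | (∀ f, 0 ≤ t f) ∧ hi ≤ t s(u, v)}

lemma measurableSet_hiSet (u v : Z2) (hi : ℝ) : MeasurableSet (hiSet u v hi) :=
  (show MeasurableSet {t : Sym2 Z2 → ℝ | ∀ f, 0 ≤ t f} by
    rw [Set.ofPred_forall]
    exact .iInter fun f => measurableSet_le measurable_const (measurable_pi_apply f)).inter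
    (measurableSet_le measurable_const (measurable_pi_apply _))

/-- On `hi ≤ t e` the number of segments has bounded mean. -/
theorem countBound (hμ : ∀ᵐ s ∂μ, 0 ≤ s) {C : ℝ≥0∞} (hC : C ≠ ⊤)
    (hB : ∀ R S : ℕ, ∫⁻ t, segSum t u v R S ∂iidLaw (Sym2 Z2) μ ≤ C) {lo hi : ℝ} (hlo : lo < hi)
    (hμlo : μ (Set.Iic lo) ≠ 0) :
    ∃ C' : ℝ≥0∞, C' ≠ ⊤ ∧
      ∀ R, ∫⁻ t in hiSet u v hi, extCount t u v R ∂iidLaw (Sym2 Z2) μ ≤ C' := by
  classical
  set P := iidLaw (Sym2 Z2) μ
  set d : ℝ≥0∞ := min (ENNReal.ofReal (hi - lo)) ((1 : ℕ) : ℝ≥0∞)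
  have hd0 : d ≠ 0 := (lt_min (ENNReal.ofReal_pos.2 (sub_pos.2 hlo)) (by simp)).ne'
  have hd : d ≠ ⊤ := ne_top_of_le_ne_top ENNReal.ofReal_ne_top (min_le_left _ _)
  set B : Set (Sym2 Z2 → ℝ) := (fun ξ => ξ s(u, v)) ⁻¹' Set.Icc 0 lo
  have hBm : MeasurableSet B := measurable_pi_apply _ measurableSet_Icc
  have hPB : P B = μ (Set.Iic lo) := by
    rw [← measure_Icc_zero μ hμ, ← Measure.map_apply (measurable_pi_apply _) measurableSet_Icc]
    exact congrArg (· (Set.Icc 0 lo)) (Measure.infinitePi_map_eval (fun _ : Sym2 Z2 => μ) _)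
  refine ⟨C / (d * μ (Set.Iic lo)), ENNReal.div_ne_top hC (mul_ne_zero hd0 hμlo), fun R => ?_⟩
  rw [ENNReal.le_div_iff_mul_le (.inl (mul_ne_zero hd0 hμlo))
    (.inl (ENNReal.mul_ne_top hd (measure_ne_top _ _))), ← mul_assoc,
    ← lintegral_mul_const _ (measurable_extCount u v R), ← lintegral_indicator
    (measurableSet_hiSet u v hi), ← hPB, ← lintegral_indicator_one hBm,
    ← lintegral_prod_mul (((measurable_extCount u v R).mul_const d).indicator
      (measurableSet_hiSet u v hi)).aemeasurable (measurable_one.indicator hBm).aemeasurable]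
  refine le_trans (lintegral_mono fun p => ?_)
    (((measurePreserving_resample μ {s(u, v)}).lintegral_comp (measurable_segSum u v R 1)).trans_le
      (hB R 1))
  by_cases h1 : p.1 ∈ hiSet u v hi
  · by_cases h2 : p.2 ∈ B
    · rw [Set.indicator_of_mem h1, Set.indicator_of_mem h2, Pi.one_apply, mul_one]
      obtain ⟨ha, hb⟩ := h2
      refine le_trans (mul_le_mul_right (min_le_min_right _ (ENNReal.ofReal_le_ofReal ?_)) _)
        (extCount_mul_le h1.1 ha (by linarith [h1.2]) R 1)
      linarith [h1.2]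
    · simp [Set.indicator_of_notMem h2]
  · simp [Set.indicator_of_notMem h1]

/-- **Part C.** Almost surely not every scale has a present segment through `(u, v)`. -/
theorem measure_all_ext_eq_zero [NullSingletonClass μ] (hμ : ∀ᵐ s ∂μ, 0 ≤ s) {C : ℝ≥0∞}
    (hC : C ≠ ⊤) (hB : ∀ R S : ℕ, ∫⁻ t, segSum t u v R S ∂iidLaw (Sym2 Z2) μ ≤ C) {lo hi : ℝ}
    (hlo : lo < hi) (hμlo : μ (Set.Iic lo) ≠ 0) :
    iidLaw (Sym2 Z2) μ (hiSet u v hi ∩ {t | ∀ R, ∃ q, t ∈ Ext u v R q}) = 0 := by
  classical
  obtain ⟨a, b, hab, ha, hb⟩ := exists_rareLevel μ 16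
  obtain ⟨C', hC', hnum⟩ := countBound μ hμ hC hB hlo hμlo
  refine TailShift.measure_all_present_eq_zero (S := tailData u v) (μ := μ) (Hi := hiSet u v hi)
    (A := Set.Icc 0 a) (b := b) (c := ENNReal.ofReal (b - a)) measurableSet_Icc
    (by rwa [measure_Icc_zero μ hμ]) (ENNReal.ofReal_pos.2 (sub_pos.2 hab)).ne'
    ENNReal.ofReal_ne_top (measurableSet_hiSet u v hi) ?_ ?_
    (C := max C C') (ne_of_lt (max_lt hC.lt_top hC'.lt_top)) ?_ ?_
  · intro L k f hf t ht hk hbf s hs
    have hkW : Win u v L (toFun k) := (geoWin_of_ext hk).1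
    have hst : s ≤ t f := (hs.2.trans hab.le).trans hbf.le
    refine ⟨⟨resample_nonneg ht.1 hs.1, ?_⟩, fun R hR q hq hqE => ?_⟩
    · rw [resample_of_ne (f := f) (f' := s(u, v)) fun he => notMem_farEdges hkW (he.symm ▸ hf)]
      exact ht.2
    · have hfq : f ∈ edgeSet R (toFun q) := by
        refine edgeSet_subset hR _ ?_
        have hk' := farEdges_subset L k hf
        change res L R q = k at hq
        rwa [← hq, edgeSet_congr fun i h1 h2 => toFun_res hR (geoWin_of_ext hqE).1 h1 h2] at hk'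
      obtain ⟨h1, h2⟩ := lower_ext (ξ := fun _ => s) ht.1 hs.1 hst hqE hfq
      refine ⟨h1, le_trans (add_le_add le_rfl (ENNReal.ofReal_le_ofReal ?_)) h2⟩
      linarith [hs.2]
  · refine tendsto_not_heavy μ _ 16 (Eventually.of_forall fun L =>
      ⟨univ.filter fun q : Seg u L => Win u v L (toFun q), card_win_le L, ?_⟩) hb _
    rintro k ⟨t, hk⟩
    exact ⟨mem_filter.2 ⟨mem_univ _, (geoWin_of_ext hk).1⟩, le_card_farEdges (geoWin_of_ext hk).1⟩
  · intro R
    simp only [num_tailData]
    exact (hnum R).trans (le_max_right _ _)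
  · intro R m
    exact ((setLIntegral_le_lintegral _ _).trans (hB R m)).trans (le_max_left _ _)

end

end Vale.P158.Chain
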